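import Vale.Agent.P195.BRes.Proj

/-!
# P195, the `B`-resolution: exactness

Evaluated at a vertex `(a, b)` with `a + b ≤ N`, the complex `t → q × s → r × rho → e → Y` is
exact: each column is exact by `colMap_exact`, and the cokernels are cleared from the top order
down.
-/

noncomputable section

namespace Vale.Agent.P195.BRes

open Finset

variable {M t r s : ℕ} {w k : ℤ} {g : Tb}

/-- The coefficient table of one `∂x^r ∂y^s`. -/
def cf (t r s : ℕ) (g : Tb) (p i : ℕ) : ℚ :=
  if p < t then co (p, t - 1 - p, r, s) (g i) else 0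

theorem co_v (hg : g ∈ Tab 0 M w k) {p q i : ℕ} (ht : p + q = t) (hi : 1 ≤ i ∧ i ≤ M) :
    co (p, q, r, s) (v M g i) = colMap (cf t r s g) p i := by
  rw [v_apply, if_pos hi, map_sub, co_mul_X₀ (hg _).1, co_mul_X₁ (hg _).1, colMap, cf, cf]
  congr 1
  · rcases p with _ | p
    · simp
    · rw [if_neg (Nat.succ_ne_zero p), if_neg (Nat.succ_ne_zero p), if_pos (by omega),
        show t - 1 - (p + 1 - 1) = q by omega]
  · rcases q with _ | q
    · rw [if_pos rfl, if_neg (by omega)]
    · rw [if_neg (Nat.succ_ne_zero q), if_pos (by omega), show t - 1 - p = q + 1 - 1 by omega]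

theorem pr_v (hg : g ∈ Tab 0 M w k) : pr M t r s (v M g) = 0 := by
  funext α
  rw [pr_apply, Pi.zero_apply]
  split_ifs with hα
  · rw [sum_congr rfl fun p hp => co_v (r := r) (s := s) hg
      (show p + (t - p) = t by rw [mem_range] at hp; omega)
      (show 1 ≤ α + p ∧ α + p ≤ M by rw [mem_range] at hp; omega)]
    exact sum_colMap _ fun i => if_neg (lt_irrefl t)
  · rfl

theorem col_inj (hg : g ∈ Tab 0 M (w - 1) k) (hM : w + k ≤ M) (h : v M g = 0) : g = 0 := by
  funext i
  refine eq_zero_of_co (hg i).1 fun ⟨p, q, r, s⟩ => ?_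
  by_cases hm : (p, q, r, s) ∈ Idx (w - 1) k
  swap
  · exact co_eq_zero (hg i).1 hm
  obtain ⟨e₁, e₂⟩ := hm
  simp only at e₁ e₂
  have := colMap_injective (K := ℚ) (M := M) (t := p + q + 1) (by omega) (cf (p + q + 1) r s g)
    (fun p' i' h' => by
      rcases h' with h' | h'
      · exact if_neg (by omega)
      · rw [cf, (hg i').2 (Or.inr h'), map_zero, ite_self])
    (fun p' i' hp hi hi' => by
      rw [← co_v hg (show p' + (p + q + 1 - p') = p + q + 1 by omega) ⟨hi, hi'⟩, h]
      exact map_zero _)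
  have h' := congrFun (congrFun this p) i
  rw [cf, if_pos (by omega), show p + q + 1 - 1 - p = q by omega] at h'
  exact h'

theorem col_exact (hg : g ∈ Tab 1 M w k) (hM : w + k ≤ M)
    (h : ∀ r s t : ℕ, (t : ℤ) = w + r + s → (r : ℤ) + s ≤ k → pr M t r s g = 0) :
    ∃ u ∈ Tab 0 M (w - 1) k, v M u = g := by
  classical
  have hG : ∀ rs : ℕ × ℕ, ∃ G : ℕ → ℕ → ℚ,
      (∀ p i, (w + rs.1 + rs.2).toNat ≤ p ∨ M < i → G p i = 0) ∧
      ((rs.1 : ℤ) + rs.2 ≤ k → 0 ≤ w + rs.1 + rs.2 → ∀ p i, p ≤ (w + rs.1 + rs.2).toNat → 1 ≤ i →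
        i ≤ M → colMap G p i = co (p, (w + rs.1 + rs.2).toNat - p, rs.1, rs.2) (g i)) := by
    intro rs
    by_cases hk : (rs.1 : ℤ) + rs.2 ≤ k ∧ 0 ≤ w + rs.1 + rs.2
    · obtain ⟨G, hG, hG'⟩ := colMap_exact (M := M) (show (w + rs.1 + rs.2).toNat ≤ M by omega)
        (fun p i => co (p, (w + rs.1 + rs.2).toNat - p, rs.1, rs.2) (g i)) (fun α h1 h2 => by
          have e := congrFun (h rs.1 rs.2 (w + rs.1 + rs.2).toNat (by omega) hk.1) α
          rwa [pr_apply, if_pos ⟨h1, h2⟩] at e)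
      exact ⟨G, hG, fun _ _ => hG'⟩
    · exact ⟨0, fun _ _ _ => rfl, fun h1 h2 => absurd ⟨h1, h2⟩ hk⟩
  choose G hG hG' using hG
  let R : Finset (ℕ × ℕ) :=
    (range (k.toNat + 1) ×ˢ range (k.toNat + 1)).filter fun rs => (rs.1 : ℤ) + rs.2 ≤ k
  let u : Tb := fun i => ∑ rs ∈ R, ∑ p ∈ range (w + rs.1 + rs.2).toNat,
    G rs p i • am (p, (w + rs.1 + rs.2).toNat - 1 - p, rs.1, rs.2)
  have hu : u ∈ Tab 0 M (w - 1) k := fun i => by
    refine ⟨?_, fun hi => sum_eq_zero fun rs _ => sum_eq_zero fun p _ => ?_⟩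
    · rw [F_eq_AM]
      refine sum_mem fun rs hrs => sum_mem fun p hp => Submodule.smul_mem _ _ (am_mem ?_)
      simp only [R, mem_filter] at hrs
      rw [mem_range] at hp
      exact ⟨by simp only; omega, hrs.2⟩
    · rw [hG rs p i (Or.inr (by omega)), zero_smul]
  refine ⟨u, hu, funext fun i => sub_eq_zero.1 ?_⟩
  have hv : v M u ∈ Tab 1 M w k := v_mem hu
  refine eq_zero_of_co (sub_mem (hv i).1 (hg i).1) fun ⟨p, q, r, s⟩ => ?_
  by_cases hm : (p, q, r, s) ∈ Idx w k
  swap
  · exact co_eq_zero (sub_mem (hv i).1 (hg i).1) hm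
  by_cases hi : 1 ≤ i ∧ i ≤ M
  swap
  · rw [(hv i).2 (by omega), (hg i).2 (by omega), sub_zero, map_zero]
  obtain ⟨e₁, e₂⟩ := hm
  simp only at e₁ e₂
  have hR : (r, s) ∈ R := by simp only [R, mem_filter, mem_product, mem_range]; omega
  have ht : (w + r + s).toNat = p + q := by omega
  have hc : cf (p + q) r s u = G (r, s) := by
    funext p' i'
    rw [cf]
    split_ifs with hp
    · simp only [u, map_sum, map_smul, co_am, smul_eq_mul, mul_ite, mul_one, mul_zero]
      rw [sum_eq_single (r, s), sum_eq_single p']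
      · rw [ht, if_pos rfl]
      · exact fun p'' _ hne => if_neg fun e => hne (congrArg Prod.fst e)
      · intro hp'; rw [mem_range] at hp'; omega
      · exact fun rs _ hne => sum_eq_zero fun p'' _ =>
          if_neg fun e => hne (congrArg (fun m => m.2.2) e)
      · exact fun h' => absurd hR h'
    · exact (hG (r, s) p' i' (Or.inl (by simp only; omega))).symm
  rw [map_sub, co_v hu rfl hi, hc, hG' (r, s) e₂ (by simp only; omega) p i (by simp only; omega)
    hi.1 hi.2]
  simp only [ht, Nat.add_sub_cancel_left, sub_self]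

/-! ### Values -/

variable {N a b : ℕ}

/-- `x^-i y^-(N+1-i)`. -/
def gen (N i : ℕ) : T := Finsupp.single (-(i : ℤ), (i : ℤ) - N - 1) 1

/-- The sum of the values of a table at the generators. -/
def aug (N : ℕ) : Tb →ₗ[ℚ] T := ∑ i ∈ Icc 1 N, (LinearMap.applyₗ (gen N i)).comp (at_ i)

theorem aug_apply (N : ℕ) (g : Tb) : aug N g = ∑ i ∈ Icc 1 N, g i (gen N i) := by
  simp [aug, LinearMap.sum_apply]

theorem sum_Icc_one {A : Type*} [AddCommMonoid A] (f : ℕ → A) (N : ℕ) :
    ∑ i ∈ Icc 1 N, f i = ∑ i ∈ range N, f (1 + i) := by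
  induction N with
  | zero => simp
  | succ n ih => rw [sum_Icc_succ_top (by omega), sum_range_succ, ih, add_comm n 1]

/-- The part of `aug` at the inverse monomials of weight `a`. -/
def evl (N a : ℕ) : Tb →ₗ[ℚ] Hf :=
  LinearMap.pi fun α =>
    if 1 ≤ α ∧ α + a ≤ N then
      (Finsupp.lapply (-(α : ℤ), (α : ℤ) + a - N - 1)).comp (aug N)
    else 0

theorem evl_apply (N a : ℕ) (g : Tb) (α : ℕ) :
    evl N a g α = if 1 ≤ α ∧ α + a ≤ N then aug N g (-(α : ℤ), (α : ℤ) + a - N - 1) else 0 := by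
  unfold evl; rw [LinearMap.pi_apply]; split_ifs <;> simp

theorem evl_h1 {x x' : Tb} (hx' : x' 0 = 0) :
    evl N a (h1 N (x, x')) = 0 := by
  have e : aug N (h1 N (x, x')) = 0 := by
    rw [aug_apply, sum_Icc_one]
    have h : ∀ n ≤ N, ∑ k ∈ range n, h1 N (x, x') (1 + k) (gen N (1 + k)) =
        ((N : ℚ) - n) • x' n (gen N n) := by
      intro n hn
      induction n with
      | zero => simp [hx']
      | succ n ih =>
        rw [sum_range_succ, ih (by omega), h1_apply, if_pos (by omega),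
          show 1 + n - 1 = n by omega, show 1 + n = n + 1 by omega]
        have e₀ : (D₀ * X₀) (gen N (n + 1)) = -(n : ℚ) • gen N (n + 1) := by
          simp only [gen, Module.End.mul_apply, X₀_single, D₀_single, Finsupp.smul_single,
            smul_eq_mul]
          congr 1
          · simp only [Prod.mk.injEq, and_true]; push_cast; ring
          · push_cast; ring
        have e₁ : (D₁ * X₀) (gen N (n + 1)) = ((n : ℚ) - N) • gen N n := by
          simp only [gen, Module.End.mul_apply, X₀_single, D₁_single, Finsupp.smul_single,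
            smul_eq_mul]
          congr 1
          · simp only [Prod.mk.injEq]; push_cast; constructor <;> ring
          · push_cast; ring
        simp only [LinearMap.add_apply, LinearMap.smul_apply, Module.End.mul_apply] at e₀ e₁ ⊢
        rw [e₀, e₁, map_smul, map_smul]
        push_cast
        module
    rw [h N le_rfl, sub_self, zero_smul]
  funext α
  rw [evl_apply, e]
  simp

theorem evl_v {g : Tb} {k : ℤ} (hg : ∀ i, g i ∈ F ((a : ℤ) - 1) k) :
    evl N a (v N g) = 0 := by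
  have h : ∀ n ≤ N, ∑ i ∈ range n, v N g (1 + i) (gen N (1 + i)) =
      g 0 (Finsupp.single (0, -(N : ℤ)) 1) -
        g n (Finsupp.single (-(n : ℤ), (n : ℤ) - N) 1) := by
    intro n hn
    induction n with
    | zero => simp
    | succ n ih =>
      rw [sum_range_succ, ih (by omega), v_apply, if_pos (by omega), show 1 + n - 1 = n by omega,
        show 1 + n = n + 1 by omega]
      simp only [LinearMap.sub_apply, Module.End.mul_apply, gen, X₀_single, X₁_single]
      push_cast
      rw [show -((n : ℤ) + 1) + 1 = -(n : ℤ) by ring,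
        show (n : ℤ) + 1 - N - 1 = (n : ℤ) - N by ring,
        show (n : ℤ) - N + 1 = (n : ℤ) + 1 - N by ring]
      abel
  funext α
  rw [evl_apply, Pi.zero_apply]
  split_ifs with hα
  · rw [aug_apply, sum_Icc_one, h N le_rfl]
    have z : ∀ (i : ℕ) (e : ℤ × ℤ), (0 ≤ e.1 ∨ 0 ≤ e.2) →
        g i (Finsupp.single e 1) (-(α : ℤ), (α : ℤ) + a - N - 1) = 0 := by
      intro i e he
      have := apply_nonneg (hg i) (x := Finsupp.single e 1)
        (Finsupp.single_mem_supported ℚ _ he)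
      by_contra hne
      have := Finsupp.mem_supported _ _ |>.1 this (Finsupp.mem_support_iff.2 hne)
      simp only [Set.mem_ofPred_eq] at this
      omega
    rw [Finsupp.sub_apply, z 0 _ (Or.inl le_rfl), z N _ (Or.inr (by simp)), sub_zero]
  · rfl

theorem evl_sec {f : Hf} (hf : Supp (N - a) f) : evl N a (sec N a 0 0 f) = f := by
  funext α
  rw [evl_apply]
  split_ifs with hα
  · rw [aug_apply, Finsupp.finsetSum_apply, sum_eq_single (α + a)]
    · rw [sec_apply, if_pos (by omega), Nat.add_sub_cancel, LinearMap.smul_apply, gen, am_single,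
        Finsupp.smul_single, Finsupp.single_apply, if_pos (by
          simp only [Prod.mk.injEq]; push_cast; omega)]
      simp [ff_zero]
    · intro i _ hne
      rw [sec_apply]
      split_ifs
      · rw [LinearMap.smul_apply, gen, am_single, Finsupp.smul_single, Finsupp.single_apply,
          if_neg fun e => hne (by simp only [Prod.mk.injEq] at e; omega)]
      · rfl
    · intro h; simp only [mem_Icc] at h; omega
  · exact (hf α (by omega)).symm

/-- The augmentation is surjective. -/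
theorem evl_surj {f : Hf} (hf : Supp (N - a) f) :
    ∃ e ∈ Tab 1 N (a : ℤ) (b : ℤ), evl N a e = f :=
  ⟨_, sec_mem (by simp) (Or.inr (by push_cast; omega)), evl_sec hf⟩

/-! ### The vertices -/

/-- One order of a table: `f r` is its coefficient at `∂x^r ∂y^(j-r)`. -/
def ord (M a j : ℕ) (f : ℕ → Hf) : Tb := ∑ r ∈ range (j + 1), sec M (a + j) r (j - r) (f r)

theorem ord_mem {j : ℕ} {f : ℕ → Hf} (h : (∀ r, f r = 0) ∨ (j : ℤ) ≤ k) :
    ord M a j f ∈ Tab 1 M (a : ℤ) k :=
  sum_mem fun r hr => sec_mem (by rw [mem_range] at hr; push_cast; omega)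
    (h.imp (fun h => h r) fun h => by rw [mem_range] at hr; omega)

theorem pr_ord {j : ℕ} {f : ℕ → Hf} (hf : ∀ r, Supp (M - (a + j)) (f r))
    (ht : t = a + r + s) : pr M t r s (ord M a j f) = if r + s = j then f r else 0 := by
  rw [ord, map_sum]
  split_ifs with h
  · rw [show t = a + j by omega, show s = j - r by omega, sum_eq_single r]
    · exact pr_sec (hf r)
    · exact fun r' _ hne => pr_sec_ne (fun e => hne (congrArg Prod.fst e)) _
    · intro h'; rw [mem_range] at h'; omega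
  · refine sum_eq_zero fun r' hr => pr_sec_ne (fun e => h ?_) _
    rw [mem_range] at hr
    simp only [Prod.mk.injEq] at e
    omega

theorem pr_h1 (hN : 1 ≤ N) {x x' : Tb} (hx : x ∈ Tab 1 (N - 1) (a : ℤ) k)
    (hx' : x' ∈ Tab 1 (N - 1) (a : ℤ) k) (ht : t = a + r + s) :
    pr N t r s (h1 N (x, x')) =
      (if r = 0 then 0 else pr (N - 1) (t - 1) (r - 1) s x) - dx (N - t) (pr (N - 1) t r s x) +
        ((if s = 0 then 0 else pr (N - 1) (t - 1) r (s - 1) x') -
          dy (N - t) (pr (N - 1) t r s x')) := by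
  rw [h1_eq, map_add, pr_E0 hN (fun i => (hx i).1) (by omega) (by omega),
    pr_E1 hN (fun i => (hx' i).1) (by omega) (by omega)]

/-- The lift of the coefficients of order at least `j`. -/
theorem lift_zero (hN : 1 ≤ N) {e : Tb} (he : e ∈ Tab 1 N (a : ℤ) (b : ℤ)) :
    ∀ n j, b + 1 ≤ j + n → 1 ≤ j → ∃ x ∈ Tab 1 (N - 1) (a : ℤ) ((b : ℤ) - 1),
      ∃ x' ∈ Tab 1 (N - 1) (a : ℤ) ((b : ℤ) - 1), ∀ r s t : ℕ, t = a + r + s → j ≤ r + s →
        pr N t r s (e - h1 N (x, x')) = 0 := by
  intro n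
  induction n with
  | zero =>
    intro j hj _
    refine ⟨0, zero_mem _, 0, zero_mem _, fun r s t _ h => ?_⟩
    rw [show ((0 : Tb), (0 : Tb)) = 0 from rfl, map_zero, sub_zero]
    exact pr_eq_zero (fun i => (he i).1) (by omega)
  | succ n ih =>
    intro j hj h1j
    obtain ⟨x, hx, x', hx', h⟩ := ih (j + 1) (by omega) (by omega)
    by_cases hjb : b < j
    · exact ⟨x, hx, x', hx', fun r s t ht hrs => by
        refine pr_eq_zero (w := (a : ℤ)) (k := (b : ℤ))
          (fun i => sub_mem (he i).1 ?_) (by omega)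
        exact (h1_mem (fun i => (hx i).1) (fun i => (hx' i).1) i).1⟩
    obtain ⟨l, rfl⟩ : ∃ l, j = l + 1 := ⟨j - 1, by omega⟩
    let e' := e - h1 N (x, x')
    let y := ord (N - 1) a l fun r => pr N (a + l + 1) (r + 1) (l - r) e'
    let y' := ord (N - 1) a l fun r => if r = 0 then pr N (a + l + 1) 0 (l + 1) e' else 0
    have hl : (l : ℤ) ≤ (b : ℤ) - 1 := by omega
    have hy : y ∈ Tab 1 (N - 1) (a : ℤ) ((b : ℤ) - 1) := ord_mem (Or.inr hl)
    have hy' : y' ∈ Tab 1 (N - 1) (a : ℤ) ((b : ℤ) - 1) := ord_mem (Or.inr hl)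
    refine ⟨x + y, add_mem hx hy, x' + y', add_mem hx' hy', fun r s t ht hrs => ?_⟩
    rw [show ((x + y, x' + y') : Tb × Tb) = (x, x') + (y, y') from rfl, map_add,
      ← sub_sub, map_sub, pr_h1 hN hy hy' ht]
    have S : ∀ r s, Supp (N - 1 - (a + l)) (pr N (a + l + 1) r s e') := fun r s => by
      rw [show N - 1 - (a + l) = N - (a + l + 1) by omega]; exact pr_supp _ _ _ _ _
    have S' : ∀ q : ℕ, Supp (N - 1 - (a + l))
        (if q = 0 then pr N (a + l + 1) 0 (l + 1) e' else 0) := fun q => by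
      split_ifs; exacts [S _ _, fun _ _ => rfl]
    rw [pr_ord (fun q => S _ _) (r := r) (s := s) ht, pr_ord S' (r := r) (s := s) ht,
      if_neg (show r + s ≠ l by omega), if_neg (show r + s ≠ l by omega), map_zero, map_zero,
      sub_zero, sub_zero]
    rcases r with _ | r
    · rw [if_pos rfl, zero_add, if_neg (show s ≠ 0 by omega),
        pr_ord S' (show t - 1 = a + 0 + (s - 1) by omega), if_pos rfl]
      split_ifs with hs
      · rw [show t = a + l + 1 by omega, show s = l + 1 by omega, sub_self]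
      · rw [sub_zero]; exact h 0 s t ht (by omega)
    · rw [if_neg (Nat.succ_ne_zero r), Nat.add_sub_cancel,
        pr_ord (fun q => S _ _) (show t - 1 = a + r + s by omega)]
      rw [show (if s = 0 then 0 else pr (N - 1) (t - 1) (r + 1) (s - 1) y') = 0 by
        split_ifs with hs
        · rfl
        · rw [pr_ord S' (show t - 1 = a + (r + 1) + (s - 1) by omega)]
          simp, add_zero]
      split_ifs with hs
      · rw [show t = a + l + 1 by omega, show l - r = s by omega, sub_self]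
      · rw [sub_zero]; exact h (r + 1) s t ht (by omega)

theorem exact_zero (hN : 3 ≤ N) (hb : a + b ≤ N) {e : Tb} (he : e ∈ Tab 1 N a b)
    (h : evl N a e = 0) :
    ∃ u x : Tb, ∃ x' : Tb, u ∈ Tab 0 N (a - 1) b ∧ x ∈ Tab 1 (N - 1) a (b - 1) ∧
      x' ∈ Tab 1 (N - 1) a (b - 1) ∧ v N u + h1 N (x, x') = e := by
  obtain ⟨x, hx, x', hx', hp⟩ := lift_zero (by omega) he (b + 1) 1 (by omega) le_rfl
  have hm : e - h1 N (x, x') ∈ Tab 1 N (a : ℤ) (b : ℤ) :=
    sub_mem he (h1_mem (fun i => (hx i).1) (fun i => (hx' i).1))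
  have he' : evl N a (e - h1 N (x, x')) = 0 := by
    rw [map_sub, h, evl_h1 ((hx' 0).2 (by omega)),
      sub_zero]
  obtain ⟨z, hz⟩ : ∃ z, pr N a 0 0 (e - h1 N (x, x')) = z := ⟨_, rfl⟩
  have sz : Supp (N - a) z := hz ▸ pr_supp _ _ _ _ _
  have m : sec N a 0 0 z ∈ Tab 1 N (a : ℤ) (b : ℤ) := sec_mem (by simp) (Or.inr (by omega))
  obtain ⟨u, hu, huv⟩ := col_exact (g := e - h1 N (x, x') - sec N a 0 0 z) (M := N) (sub_mem hm m)
    (by omega) fun r s t ht _ => by
      rw [map_sub]
      rcases Nat.eq_zero_or_pos (r + s) with h0 | h0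
      · obtain ⟨rfl, rfl⟩ : r = 0 ∧ s = 0 := by omega
        obtain rfl : t = a := by omega
        rw [pr_sec sz, hz, sub_self]
      · rw [hp r s t (by omega) h0, pr_sec_ne (by simp only [ne_eq, Prod.mk.injEq]; omega),
          sub_zero]
  have : z = 0 := by
    have e1 := congrArg (evl N a) huv
    rw [map_sub, evl_v (fun i => (hu i).1), he', zero_sub, evl_sec sz] at e1
    exact neg_eq_zero.1 e1.symm
  exact ⟨u, x, x', hu, hx, hx', by rw [huv, this, map_zero, sub_zero, sub_add_cancel]⟩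

theorem pr_h2 (hN : 2 ≤ N) {g : Tb} (hg : g ∈ Tab 1 (N - 2) (a : ℤ) k) (ht : t = a + r + s) :
    pr (N - 1) t r s (h2 N g).1 = -((if s = 0 then 0 else pr (N - 2) (t - 1) r (s - 1) g) -
        dy (N - 1 - t) (pr (N - 2) t r s g)) ∧
      pr (N - 1) t r s (h2 N g).2 = (if r = 0 then 0 else pr (N - 2) (t - 1) (r - 1) s g) -
        dx (N - 1 - t) (pr (N - 2) t r s g) := by
  rw [h2_eq (by omega), map_neg, pr_E1 (by omega) (fun i => (hg i).1) (by omega) (by omega),
    pr_E0 (by omega) (fun i => (hg i).1) (by omega) (by omega),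
    show N - 1 - 1 = N - 2 by omega]
  exact ⟨rfl, rfl⟩

theorem exact_one (hN : 3 ≤ N) (hb : a + b ≤ N) {u x x' : Tb}
    (hu : u ∈ Tab 0 N (a - 1) b) (hx : x ∈ Tab 1 (N - 1) a (b - 1))
    (hx' : x' ∈ Tab 1 (N - 1) a (b - 1)) (h : v N u + h1 N (x, x') = 0) :
    ∃ q q' g : Tb, q ∈ Tab 0 (N - 1) (a - 1) (b - 1) ∧ q' ∈ Tab 0 (N - 1) (a - 1) (b - 1) ∧
      g ∈ Tab 1 (N - 2) a (b - 2) ∧ k1 N (q, q') = u ∧ v (N - 1) q + (h2 N g).1 = x ∧
        v (N - 1) q' + (h2 N g).2 = x' := by
  have mh : ∀ g ∈ Tab 1 (N - 2) (a : ℤ) ((b : ℤ) - 2),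
      (h2 N g).1 ∈ Tab 1 (N - 1) (a : ℤ) ((b : ℤ) - 1) ∧
        (h2 N g).2 ∈ Tab 1 (N - 1) (a : ℤ) ((b : ℤ) - 1) := fun g hg =>
    h2_mem fun i => by rw [show (b : ℤ) - 1 - 1 = b - 2 by ring]; exact (hg i).1
  have eqn : ∀ g ∈ Tab 1 (N - 2) (a : ℤ) ((b : ℤ) - 2), ∀ r s t : ℕ, t = a + r + s →
      (if r = 0 then 0 else pr (N - 1) (t - 1) (r - 1) s (x - (h2 N g).1)) -
          dx (N - t) (pr (N - 1) t r s (x - (h2 N g).1)) +
        ((if s = 0 then 0 else pr (N - 1) (t - 1) r (s - 1) (x' - (h2 N g).2)) -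
          dy (N - t) (pr (N - 1) t r s (x' - (h2 N g).2))) = 0 := fun g hg r s t ht => by
    rw [← pr_h1 (by omega) (sub_mem hx (mh g hg).1) (sub_mem hx' (mh g hg).2) ht,
      show ((x - (h2 N g).1, x' - (h2 N g).2) : Tb × Tb) = (x, x') - h2 N g from rfl, map_sub,
      h1_h2 g ((hg 0).2 (by omega)), sub_zero]
    have e := congrArg (pr N t r s) h
    rwa [map_add, map_zero, pr_v hu, zero_add] at e
  have low : ∀ n j, b ≤ j + n → 1 ≤ j → ∃ g ∈ Tab 1 (N - 2) (a : ℤ) ((b : ℤ) - 2),
      ∀ r s t : ℕ, t = a + r + s → j ≤ r + s → pr (N - 1) t r s (x - (h2 N g).1) = 0 ∧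
        pr (N - 1) t r s (x' - (h2 N g).2) = 0 := by
    intro n
    induction n with
    | zero =>
      intro j hj _
      refine ⟨0, zero_mem _, fun r s t _ hrs => ?_⟩
      simp only [map_zero, Prod.fst_zero, Prod.snd_zero, sub_zero]
      exact ⟨pr_eq_zero (fun i => (hx i).1) (by omega), pr_eq_zero (fun i => (hx' i).1) (by omega)⟩
    | succ n ih =>
      intro j hj h1j
      obtain ⟨g, hg, hp⟩ := ih (j + 1) (by omega) (by omega)
      by_cases hjb : b ≤ j
      · exact ⟨g, hg, fun r s t _ hrs =>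
          ⟨pr_eq_zero (fun i => sub_mem (hx i).1 ((mh g hg).1 i).1) (by omega),
            pr_eq_zero (fun i => sub_mem (hx' i).1 ((mh g hg).2 i).1) (by omega)⟩⟩
      obtain ⟨l, rfl⟩ : ∃ l, j = l + 1 := ⟨j - 1, by omega⟩
      let y := ord (N - 2) a l fun q => pr (N - 1) (a + l + 1) (q + 1) (l - q) (x' - (h2 N g).2)
      have hy : y ∈ Tab 1 (N - 2) (a : ℤ) ((b : ℤ) - 2) := ord_mem (Or.inr (by omega))
      have S : ∀ q, Supp (N - 2 - (a + l))
          (pr (N - 1) (a + l + 1) (q + 1) (l - q) (x' - (h2 N g).2)) := fun q => by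
        rw [show N - 2 - (a + l) = N - 1 - (a + l + 1) by omega]; exact pr_supp _ _ _ _ _
      refine ⟨g + y, add_mem hg hy, fun r s t ht hrs => ?_⟩
      obtain ⟨p, p'⟩ := pr_h2 (by omega) hy ht
      rw [map_add, Prod.fst_add, Prod.snd_add, ← sub_sub, ← sub_sub, map_sub _ (x - _),
        map_sub _ (x' - _), p, p', pr_ord S ht, if_neg (show r + s ≠ l by omega), map_zero,
        map_zero, sub_zero, sub_zero]
      by_cases hl : r + s = l + 1
      swap
      · obtain ⟨h₀, h₀'⟩ := hp r s t ht (by omega)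
        rw [h₀, h₀']
        constructor <;> split_ifs <;>
          first
          | (rw [pr_ord S (by omega), if_neg (by omega)]; simp)
          | simp
      constructor
      · have e := eqn g hg (r + 1) s (t + 1) (by omega)
        rw [(hp (r + 1) s (t + 1) (by omega) (by omega)).1,
          (hp (r + 1) s (t + 1) (by omega) (by omega)).2] at e
        simp only [Nat.add_one_ne_zero, ↓reduceIte, Nat.add_sub_cancel, map_zero, sub_zero] at e
        split_ifs at e ⊢ with hs
        · simpa using e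
        · rw [pr_ord S (by omega), if_pos (by omega), show a + l + 1 = t by omega,
            show l - r = s - 1 by omega, sub_neg_eq_add, e]
      · rcases r with _ | r
        · have e := eqn g hg 0 (s + 1) (t + 1) (by omega)
          rw [(hp 0 (s + 1) (t + 1) (by omega) (by omega)).1,
            (hp 0 (s + 1) (t + 1) (by omega) (by omega)).2] at e
          simpa using e
        · rw [if_neg (Nat.succ_ne_zero r), Nat.add_sub_cancel, pr_ord S (by omega),
            if_pos (by omega), show a + l + 1 = t by omega, show l - r = s by omega, sub_self]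
  obtain ⟨g, hg, hp⟩ := low b 1 (by omega) le_rfl
  have k0 : ∀ r s t : ℕ, t = a + r + s →
      pr (N - 1) t r s (x - (h2 N g).1) = 0 ∧ pr (N - 1) t r s (x' - (h2 N g).2) = 0 := by
    intro r s t ht
    rcases Nat.eq_zero_or_pos (r + s) with h0 | h0
    swap
    · exact hp r s t ht h0
    obtain ⟨rfl, rfl⟩ : r = 0 ∧ s = 0 := by omega
    have e₀ := eqn g hg 1 0 (t + 1) (by omega)
    have e₁ := eqn g hg 0 1 (t + 1) (by omega)
    rw [(hp 1 0 (t + 1) (by omega) le_rfl).1, (hp 1 0 (t + 1) (by omega) le_rfl).2] at e₀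
    rw [(hp 0 1 (t + 1) (by omega) le_rfl).1, (hp 0 1 (t + 1) (by omega) le_rfl).2] at e₁
    exact ⟨by simpa using e₀, by simpa using e₁⟩
  obtain ⟨q, hq, eq⟩ := col_exact (g := x - (h2 N g).1) (M := N - 1) (w := a) (k := (b : ℤ) - 1)
    (sub_mem hx (mh g hg).1) (by omega) (fun r s t ht _ => (k0 r s t (by omega)).1)
  obtain ⟨q', hq', eq'⟩ := col_exact (g := x' - (h2 N g).2) (M := N - 1) (w := a) (k := (b : ℤ) - 1)
    (sub_mem hx' (mh g hg).2) (by omega) (fun r s t ht _ => (k0 r s t (by omega)).2)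
  refine ⟨q, q', g, hq, hq', hg, ?_, by rw [eq, sub_add_cancel], by rw [eq', sub_add_cancel]⟩
  refine sub_eq_zero.1 (col_inj (M := N) (w := a) (sub_mem (k1_mem hq hq' (by omega)) hu)
    (by omega) ?_)
  have c1 := v_k1_add (N := N) (q := (q, q')) hq hq'
  simp only [eq, eq'] at c1
  rw [show ((x - (h2 N g).1, x' - (h2 N g).2) : Tb × Tb) = (x, x') - h2 N g from rfl, map_sub,
    h1_h2 g ((hg 0).2 (by omega)), sub_zero] at c1
  rw [map_sub]
  exact sub_eq_zero.2 (add_right_cancel (c1.trans h.symm))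

theorem exact_two (hN : 3 ≤ N) (hb : a + b ≤ N) {q q' g : Tb}
    (hq : q ∈ Tab 0 (N - 1) (a - 1) (b - 1)) (hq' : q' ∈ Tab 0 (N - 1) (a - 1) (b - 1))
    (hg : g ∈ Tab 1 (N - 2) a (b - 2)) (h : v (N - 1) q + (h2 N g).1 = 0)
    (h' : v (N - 1) q' + (h2 N g).2 = 0) :
    ∃ u : Tb, u ∈ Tab 0 (N - 2) (a - 1) (b - 2) ∧ k2 N u = (q, q') ∧ v (N - 2) u = g := by
  have z : ∀ n r s t : ℕ, t = a + r + s → b ≤ r + s + n → pr (N - 2) t r s g = 0 := by
    intro n
    induction n with
    | zero => exact fun r s t _ hrs => pr_eq_zero (fun i => (hg i).1) (by omega)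
    | succ n ih =>
      intro r s t ht hrs
      have e := congrArg (pr (N - 1) (t + 1) (r + 1) s) h'
      rw [map_add, map_zero, pr_v hq', zero_add, (pr_h2 (by omega) hg (by omega)).2,
        ih (r + 1) s (t + 1) (by omega) (by omega), map_zero] at e
      simpa using e
  obtain ⟨u, hu, rfl⟩ := col_exact (g := g) (M := N - 2) (w := a) (k := (b : ℤ) - 2) hg (by omega)
    fun r s t ht _ => z b r s t (by omega) (by omega)
  refine ⟨u, hu, ?_, rfl⟩
  obtain ⟨c, c'⟩ := v_k2_add (N := N) hu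
  have m := k2_mem (N := N) (w := (a : ℤ) - 1) (k := (b : ℤ) - 1) (t := u)
    (by rw [show (b : ℤ) - 1 - 1 = b - 2 by ring]; exact hu) (by omega)
  refine Prod.ext (sub_eq_zero.1 (col_inj (M := N - 1) (w := a) (sub_mem m.1 hq) (by omega) ?_))
    (sub_eq_zero.1 (col_inj (M := N - 1) (w := a) (sub_mem m.2 hq') (by omega) ?_))
  · rw [map_sub, sub_eq_zero]; exact add_right_cancel (c.trans h.symm)
  · rw [map_sub, sub_eq_zero]; exact add_right_cancel (c'.trans h'.symm)

theorem exact_three (hN : 3 ≤ N) (hb : a + b ≤ N) {u : Tb}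
    (hu : u ∈ Tab 0 (N - 2) (a - 1) (b - 2)) (h : v (N - 2) u = 0) : u = 0 :=
  col_inj (w := a) hu (by omega) h

end Vale.Agent.P195.BRes
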