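import Vale.Agent.P195.BRes.Coord

/-!
# P195, the `B`-resolution: the matrices

A term is a table `ℕ → Op` of coefficients at the generators `e_i, r_i, rho(j,i), q(j,i), s_i, t_i`
(`1 ≤ i ≤ N` for `e`, `0 ≤ i ≤ N` for `r`; `M = N - 1` in the two middle ones, `N - 2` in the last).
The differential is `d₁ = v ⊕ h1`, `d₂ = (k1, v; 0, h2)`, `d₃ = (k2; v)`.
-/

noncomputable section

namespace Vale.Agent.P195.BRes

/-- Tables of coefficients. -/
abbrev Tb : Type := ℕ → Op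

/-- Tables with entries in `F w k`, supported in `[a, b]`. -/
def Tab (a b : ℕ) (w k : ℤ) : Submodule ℚ Tb where
  carrier := {g | ∀ i, g i ∈ F w k ∧ (i < a ∨ b < i → g i = 0)}
  add_mem' hf hg i := ⟨add_mem (hf i).1 (hg i).1, fun h => by simp [(hf i).2 h, (hg i).2 h]⟩
  zero_mem' _ := ⟨zero_mem _, fun _ => rfl⟩
  smul_mem' c g hg i := ⟨Submodule.smul_mem _ c (hg i).1, fun h => by simp [(hg i).2 h]⟩

/-- The coefficient at the generator `i`. -/
abbrev at_ (i : ℕ) : Tb →ₗ[ℚ] Op := LinearMap.proj (R := ℚ) (φ := fun _ : ℕ => Op) i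

/-- Composition on the right with `f`. -/
abbrev rmul (f : Op) : Op →ₗ[ℚ] Op := LinearMap.mulRight ℚ f

/-- The Kronecker maps `r → e`, `q → rho`, `t → s`. -/
def v (M : ℕ) : Tb →ₗ[ℚ] Tb :=
  LinearMap.pi fun i =>
    if 1 ≤ i ∧ i ≤ M then (rmul X₀).comp (at_ (i - 1)) - (rmul X₁).comp (at_ i) else 0

theorem v_apply (M : ℕ) (g : Tb) (i : ℕ) :
    v M g i = if 1 ≤ i ∧ i ≤ M then g (i - 1) * X₀ - g i * X₁ else 0 := by
  unfold v; rw [LinearMap.pi_apply]; split_ifs <;> simp [-LinearMap.mulRight_mul]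

/-- `rho → e`. -/
def h1 (N : ℕ) : Tb × Tb →ₗ[ℚ] Tb :=
  LinearMap.pi fun i =>
    if 1 ≤ i ∧ i ≤ N then
      ((rmul (D₀ * X₀)).comp (at_ (i - 1)) + ((i : ℚ) - 1) • at_ (i - 1)).comp
          (LinearMap.fst ℚ Tb Tb) +
        ((rmul (D₁ * X₀)).comp (at_ (i - 1)) + ((N : ℚ) - i) • at_ i).comp (LinearMap.snd ℚ Tb Tb)
    else 0

theorem h1_apply (N : ℕ) (x : Tb × Tb) (i : ℕ) :
    h1 N x i = if 1 ≤ i ∧ i ≤ N then
      x.1 (i - 1) * (D₀ * X₀) + ((i : ℚ) - 1) • x.1 (i - 1) +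
        (x.2 (i - 1) * (D₁ * X₀) + ((N : ℚ) - i) • x.2 i) else 0 := by
  unfold h1; rw [LinearMap.pi_apply]; split_ifs <;> simp [-LinearMap.mulRight_mul]

/-- `q → r`. -/
def k1 (N : ℕ) : Tb × Tb →ₗ[ℚ] Tb :=
  LinearMap.pi fun i =>
    if i = 0 then
      -(((rmul (D₀ * X₁)).comp (at_ 0)).comp (LinearMap.fst ℚ Tb Tb) +
        ((rmul (D₁ * X₁)).comp (at_ 0) + ((N : ℚ) - 1) • at_ 0).comp (LinearMap.snd ℚ Tb Tb))
    else
      -(((rmul (D₀ * X₀)).comp (at_ (i - 1)) + ((i : ℚ) - 1) • at_ (i - 1)).comp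
          (LinearMap.fst ℚ Tb Tb) +
        ((rmul (D₁ * X₀)).comp (at_ (i - 1)) + ((N : ℚ) - i) • at_ i).comp (LinearMap.snd ℚ Tb Tb))

theorem k1_apply (N : ℕ) (q : Tb × Tb) (i : ℕ) :
    k1 N q i = if i = 0 then
      -(q.1 0 * (D₀ * X₁) + (q.2 0 * (D₁ * X₁) + ((N : ℚ) - 1) • q.2 0)) else
      -(q.1 (i - 1) * (D₀ * X₀) + ((i : ℚ) - 1) • q.1 (i - 1) +
        (q.2 (i - 1) * (D₁ * X₀) + ((N : ℚ) - i) • q.2 i)) := by
  unfold k1; rw [LinearMap.pi_apply]; split_ifs <;> simp [-LinearMap.mulRight_mul]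

/-- `s → rho`. -/
def h2 (N : ℕ) : Tb →ₗ[ℚ] Tb × Tb :=
  LinearMap.prod
    (LinearMap.pi fun i =>
      if 1 ≤ i ∧ i + 1 ≤ N then
        -((rmul (D₁ * X₀)).comp (at_ (i - 1)) + ((N : ℚ) - 1 - i) • at_ i)
      else 0)
    (LinearMap.pi fun i =>
      if 1 ≤ i ∧ i + 1 ≤ N then
        (rmul (D₀ * X₀)).comp (at_ (i - 1)) + ((i : ℚ) - 1) • at_ (i - 1)
      else 0)

theorem h2_fst (N : ℕ) (s : Tb) (i : ℕ) :
    (h2 N s).1 i = if 1 ≤ i ∧ i + 1 ≤ N then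
      -(s (i - 1) * (D₁ * X₀) + ((N : ℚ) - 1 - i) • s i) else 0 := by
  unfold h2; simp only [LinearMap.prod_apply, Function.prod, LinearMap.pi_apply]
  split_ifs <;> simp [-LinearMap.mulRight_mul]

theorem h2_snd (N : ℕ) (s : Tb) (i : ℕ) :
    (h2 N s).2 i = if 1 ≤ i ∧ i + 1 ≤ N then
      s (i - 1) * (D₀ * X₀) + ((i : ℚ) - 1) • s (i - 1) else 0 := by
  unfold h2; simp only [LinearMap.prod_apply, Function.prod, LinearMap.pi_apply]
  split_ifs <;> simp [-LinearMap.mulRight_mul]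

/-- `t → q`. -/
def k2 (N : ℕ) : Tb →ₗ[ℚ] Tb × Tb :=
  LinearMap.prod
    (LinearMap.pi fun i =>
      if i = 0 then (rmul (D₁ * X₁)).comp (at_ 0) + ((N : ℚ) - 2) • at_ 0
      else (rmul (D₁ * X₀)).comp (at_ (i - 1)) + ((N : ℚ) - 1 - i) • at_ i)
    (LinearMap.pi fun i =>
      if i = 0 then -((rmul (D₀ * X₁)).comp (at_ 0))
      else -((rmul (D₀ * X₀)).comp (at_ (i - 1)) + ((i : ℚ) - 1) • at_ (i - 1)))

theorem k2_fst (N : ℕ) (t : Tb) (i : ℕ) :
    (k2 N t).1 i = if i = 0 then t 0 * (D₁ * X₁) + ((N : ℚ) - 2) • t 0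
      else t (i - 1) * (D₁ * X₀) + ((N : ℚ) - 1 - i) • t i := by
  unfold k2; simp only [LinearMap.prod_apply, Function.prod, LinearMap.pi_apply]
  split_ifs <;> simp [-LinearMap.mulRight_mul]

theorem k2_snd (N : ℕ) (t : Tb) (i : ℕ) :
    (k2 N t).2 i = if i = 0 then -(t 0 * (D₀ * X₁))
      else -(t (i - 1) * (D₀ * X₀) + ((i : ℚ) - 1) • t (i - 1)) := by
  unfold k2; simp only [LinearMap.prod_apply, Function.prod, LinearMap.pi_apply]
  split_ifs <;> simp [-LinearMap.mulRight_mul]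

/-! ### Membership -/

theorem X₀_mem : X₀ ∈ F 1 0 := by
  rw [show X₀ = mono (1, 0, 0, 0) by simp [mono]]; exact mono_mem ⟨by simp, by simp⟩

theorem X₁_mem : X₁ ∈ F 1 0 := by
  rw [show X₁ = mono (0, 1, 0, 0) by simp [mono]]; exact mono_mem ⟨by simp, by simp⟩

theorem D₀_mem : D₀ ∈ F (-1) 1 := by
  rw [show D₀ = mono (0, 0, 1, 0) by simp [mono]]; exact mono_mem ⟨by simp, by simp⟩

theorem D₁_mem : D₁ ∈ F (-1) 1 := by
  rw [show D₁ = mono (0, 0, 0, 1) by simp [mono]]; exact mono_mem ⟨by simp, by simp⟩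

variable {w k : ℤ} {f : Op}

theorem mul_X_mem {X : Op} (hX : X ∈ F 1 0) (hf : f ∈ F w k) : f * X ∈ F (w + 1) k := by
  have := mul_mem_F hf hX
  rwa [zero_add, add_comm] at this

theorem mul_DX_mem {D X : Op} (hD : D ∈ F (-1) 1) (hX : X ∈ F 1 0) (hf : f ∈ F w k) :
    f * (D * X) ∈ F w (k + 1) := by
  have := mul_mem_F hf (mul_mem_F hD hX)
  rwa [add_comm _ w, add_comm _ k, show w + (1 + -1 : ℤ) = w by ring,
    show k + (0 + 1 : ℤ) = k + 1 by ring] at this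

variable {N M a b : ℕ} {g : Tb}

theorem v_mem (hg : g ∈ Tab a b (w - 1) k) : v M g ∈ Tab 1 M w k := fun i => by
  rw [v_apply, show w = w - 1 + 1 by ring]
  split_ifs with h
  · exact ⟨sub_mem (mul_X_mem X₀_mem (hg _).1) (mul_X_mem X₁_mem (hg _).1), fun h' => by omega⟩
  · exact ⟨zero_mem _, fun _ => rfl⟩

theorem h1_mem {x : Tb × Tb} (h : ∀ i, x.1 i ∈ F w (k - 1)) (h' : ∀ i, x.2 i ∈ F w (k - 1)) :
    h1 N x ∈ Tab 1 N w k := fun i => by
  rw [h1_apply, show k = k - 1 + 1 by ring]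
  have le := F_le (w := w) (show k - 1 ≤ k - 1 + 1 by omega)
  split_ifs with hi
  · exact ⟨add_mem (add_mem (mul_DX_mem D₀_mem X₀_mem (h _)) (Submodule.smul_mem _ _ (le (h _))))
      (add_mem (mul_DX_mem D₁_mem X₀_mem (h' _)) (Submodule.smul_mem _ _ (le (h' _)))),
      fun _ => by omega⟩
  · exact ⟨zero_mem _, fun _ => rfl⟩

theorem k1_mem {q : Tb × Tb} (h : q.1 ∈ Tab 0 (N - 1) w (k - 1)) (h' : q.2 ∈ Tab 0 (N - 1) w (k - 1))
    (hN : 1 ≤ N) : k1 N q ∈ Tab 0 N w k := fun i => by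
  rw [k1_apply, show k = k - 1 + 1 by ring]
  have le := F_le (w := w) (show k - 1 ≤ k - 1 + 1 by omega)
  refine ⟨?_, fun hi => ?_⟩
  · split_ifs
    · exact neg_mem (add_mem (mul_DX_mem D₀_mem X₁_mem (h _).1)
        (add_mem (mul_DX_mem D₁_mem X₁_mem (h' _).1) (Submodule.smul_mem _ _ (le (h' _).1))))
    · exact neg_mem (add_mem
        (add_mem (mul_DX_mem D₀_mem X₀_mem (h _).1) (Submodule.smul_mem _ _ (le (h _).1)))
        (add_mem (mul_DX_mem D₁_mem X₀_mem (h' _).1) (Submodule.smul_mem _ _ (le (h' _).1))))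
  · rw [if_neg (by omega), (h _).2 (by omega), (h' _).2 (by omega), (h' i).2 (by omega)]
    simp

theorem h2_mem {s : Tb} (h : ∀ i, s i ∈ F w (k - 1)) :
    (h2 N s).1 ∈ Tab 1 (N - 1) w k ∧ (h2 N s).2 ∈ Tab 1 (N - 1) w k := by
  have le := F_le (w := w) (show k - 1 ≤ k - 1 + 1 by omega)
  refine ⟨fun i => ?_, fun i => ?_⟩ <;> rw [show k = k - 1 + 1 by ring]
  · rw [h2_fst]
    split_ifs with hi
    · exact ⟨neg_mem (add_mem (mul_DX_mem D₁_mem X₀_mem (h _)) (Submodule.smul_mem _ _ (le (h _)))),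
        fun _ => by omega⟩
    · exact ⟨zero_mem _, fun _ => rfl⟩
  · rw [h2_snd]
    split_ifs with hi
    · exact ⟨add_mem (mul_DX_mem D₀_mem X₀_mem (h _)) (Submodule.smul_mem _ _ (le (h _))),
        fun _ => by omega⟩
    · exact ⟨zero_mem _, fun _ => rfl⟩

theorem k2_mem {t : Tb} (h : t ∈ Tab 0 (N - 2) w (k - 1)) (hN : 2 ≤ N) :
    (k2 N t).1 ∈ Tab 0 (N - 1) w k ∧ (k2 N t).2 ∈ Tab 0 (N - 1) w k := by
  have le := F_le (w := w) (show k - 1 ≤ k - 1 + 1 by omega)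
  refine ⟨fun i => ?_, fun i => ?_⟩ <;> rw [show k = k - 1 + 1 by ring] <;> refine ⟨?_, fun hi => ?_⟩
  · rw [k2_fst]
    split_ifs <;>
      exact add_mem (mul_DX_mem D₁_mem (by first | exact X₀_mem | exact X₁_mem) (h _).1)
        (Submodule.smul_mem _ _ (le (h _).1))
  · rw [k2_fst, if_neg (by omega), (h _).2 (by omega), (h i).2 (by omega)]
    simp
  · rw [k2_snd]
    split_ifs
    · exact neg_mem (mul_DX_mem D₀_mem X₁_mem (h _).1)
    · exact neg_mem (add_mem (mul_DX_mem D₀_mem X₀_mem (h _).1)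
        (Submodule.smul_mem _ _ (le (h _).1)))
  · rw [k2_snd, if_neg (by omega), (h _).2 (by omega)]
    simp

/-! ### The differential squares to zero -/

theorem X₁_X₀ : X₁ * X₀ = X₀ * X₁ := by
  refine Finsupp.lhom_ext fun e c => ?_
  simp [X₀_single, X₁_single]

theorem D₀_X₀ : D₀ * X₀ = X₀ * D₀ + 1 := by
  refine Finsupp.lhom_ext fun e c => ?_
  simp only [Module.End.mul_apply, LinearMap.add_apply, X₀_single, D₀_single, Module.End.one_apply]
  rw [show (e.1 + 1 - 1, e.2) = e by simp, show (e.1 - 1 + 1, e.2) = e by simp, ← Finsupp.single_add]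
  congr 1
  push_cast; ring

theorem D₁_X₁ : D₁ * X₁ = X₁ * D₁ + 1 := by
  refine Finsupp.lhom_ext fun e c => ?_
  simp only [Module.End.mul_apply, LinearMap.add_apply, X₁_single, D₁_single, Module.End.one_apply]
  rw [show (e.1, e.2 + 1 - 1) = e by simp, show (e.1, e.2 - 1 + 1) = e by simp, ← Finsupp.single_add]
  congr 1
  push_cast; ring

theorem D₀_X₁ : D₀ * X₁ = X₁ * D₀ := by
  refine Finsupp.lhom_ext fun e c => ?_
  simp only [Module.End.mul_apply, D₀_single, X₁_single]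

theorem D₁_X₀ : D₁ * X₀ = X₀ * D₁ := by
  refine Finsupp.lhom_ext fun e c => ?_
  simp only [Module.End.mul_apply, D₁_single, X₀_single]

theorem D₁_D₀ : D₁ * D₀ = D₀ * D₁ := by
  refine Finsupp.lhom_ext fun e c => ?_
  simp only [Module.End.mul_apply, D₀_single, D₁_single]
  congr 1
  ring

theorem neg_mul' (f g : Op) : -f * g = -(f * g) := neg_mul f g

section Assoc

variable (f : Op)

theorem X₁_X₀' : X₁ * (X₀ * f) = X₀ * (X₁ * f) := by rw [← mul_assoc, X₁_X₀, mul_assoc]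

theorem D₀_X₀' : D₀ * (X₀ * f) = X₀ * (D₀ * f) + f := by
  rw [← mul_assoc, D₀_X₀, add_mul, one_mul, mul_assoc]

theorem D₁_X₁' : D₁ * (X₁ * f) = X₁ * (D₁ * f) + f := by
  rw [← mul_assoc, D₁_X₁, add_mul, one_mul, mul_assoc]

theorem D₀_X₁' : D₀ * (X₁ * f) = X₁ * (D₀ * f) := by rw [← mul_assoc, D₀_X₁, mul_assoc]

theorem D₁_X₀' : D₁ * (X₀ * f) = X₀ * (D₁ * f) := by rw [← mul_assoc, D₁_X₀, mul_assoc]

theorem D₁_D₀' : D₁ * (D₀ * f) = D₀ * (D₁ * f) := by rw [← mul_assoc, D₁_D₀, mul_assoc]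

end Assoc

attribute [local simp] D₀_X₀ D₁_X₁ D₀_X₁ D₁_X₀ D₁_D₀ X₁_X₀ D₀_X₀' D₁_X₁' D₀_X₁' D₁_X₀' D₁_D₀'
  X₁_X₀' mul_add add_mul sub_mul mul_sub mul_assoc neg_mul' smul_sub

theorem v_k1_add {q : Tb × Tb} (h : q.1 ∈ Tab 0 (N - 1) w k) (h' : q.2 ∈ Tab 0 (N - 1) w k) :
    v N (k1 N q) + h1 N (v (N - 1) q.1, v (N - 1) q.2) = 0 := by
  funext i
  simp only [Pi.add_apply, Pi.zero_apply, v_apply, h1_apply, k1_apply]
  by_cases hi : 1 ≤ i ∧ i ≤ N
  · obtain ⟨j, rfl⟩ : ∃ j, i = j + 1 := ⟨i - 1, by omega⟩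
    simp only [if_pos hi, Nat.add_sub_cancel, Nat.add_one_ne_zero, ↓reduceIte]
    rcases j with _ | j
    · rcases Nat.lt_or_ge 1 N with hN | hN
      · simp [show 1 ≤ N - 1 by omega]
      · obtain rfl : N = 1 := by omega
        simp [(h 1).2 (by omega), (h' 1).2 (by omega)]
    · simp only [show j + 1 ≠ 0 by omega, if_false, Nat.add_sub_cancel,
        if_pos (show 1 ≤ j + 1 ∧ j + 1 ≤ N - 1 by omega)]
      rcases Nat.lt_or_ge (j + 2) N with hN | hN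
      · simp [show j + 1 + 1 ≤ N - 1 by omega]
        module
      · obtain rfl : N = j + 2 := by omega
        simp [(h _).2 (show j + 1 + 1 < 0 ∨ j + 2 - 1 < j + 1 + 1 by omega),
          (h' _).2 (show j + 1 + 1 < 0 ∨ j + 2 - 1 < j + 1 + 1 by omega)]
        module
  · simp [hi]

theorem v_k2_add {t : Tb} (h : t ∈ Tab 0 (N - 2) w k) :
    v (N - 1) (k2 N t).1 + (h2 N (v (N - 2) t)).1 = 0 ∧
      v (N - 1) (k2 N t).2 + (h2 N (v (N - 2) t)).2 = 0 := by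
  refine ⟨funext fun i => ?_, funext fun i => ?_⟩
  all_goals
    simp only [Pi.add_apply, Pi.zero_apply, v_apply, h2_fst, h2_snd, k2_fst, k2_snd]
    by_cases hi : 1 ≤ i ∧ i ≤ N - 1
    · obtain ⟨j, rfl⟩ : ∃ j, i = j + 1 := ⟨i - 1, by omega⟩
      simp only [if_pos hi, if_pos (show 1 ≤ j + 1 ∧ j + 1 + 1 ≤ N by omega), Nat.add_sub_cancel,
        Nat.add_one_ne_zero, ↓reduceIte]
      rcases j with _ | j
      · simp only [↓reduceIte, Nat.zero_add, show ¬(1 ≤ 0 ∧ 0 ≤ N - 2) by omega]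
        (try split_ifs with hN) <;>
        first
        | (simp <;> module)
        | (simp [(h 1).2 (Or.inr (by omega)), show N = 2 by omega] <;> module)
      · simp only [Nat.add_one_ne_zero, ↓reduceIte, Nat.add_sub_cancel,
          if_pos (show 1 ≤ j + 1 ∧ j + 1 ≤ N - 2 by omega)]
        (try split_ifs with hN) <;>
        first
        | (simp <;> module)
        | (simp [(h (j + 1 + 1)).2 (Or.inr (by omega)), show N = j + 3 by omega] <;> module)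
    · rw [if_neg hi, if_neg (show ¬(1 ≤ i ∧ i + 1 ≤ N) by omega), add_zero]

theorem h1_h2 (s : Tb) (hs : s 0 = 0) : h1 N (h2 N s) = 0 := by
  funext i
  simp only [Pi.zero_apply, h1_apply, h2_fst, h2_snd]
  by_cases hi : 1 ≤ i ∧ i ≤ N
  · obtain ⟨j, rfl⟩ : ∃ j, i = j + 1 := ⟨i - 1, by omega⟩
    simp only [if_pos hi, Nat.add_sub_cancel]
    rcases j with _ | j
    · split_ifs <;> simp [hs]
    · simp only [Nat.add_sub_cancel, if_pos (show 1 ≤ j + 1 ∧ j + 1 + 1 ≤ N by omega)]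
      rcases Nat.lt_or_ge (j + 2) N with hN | hN
      · simp [show j + 1 + 1 + 1 ≤ N by omega]
        module
      · obtain rfl : N = j + 2 := by omega
        simp
        module
  · simp [hi]

end Vale.Agent.P195.BRes
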