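import Vale.Agent.P195.BRes.ColAux
import Vale.Agent.P195.BRes.Maps
import Vale.Agent.P195.ResR.Sums
import Vale.Agent.P195.ResR.Square

/-!
# P195, columns of the `B`-resolution

`Co N s l` holds the families of operators from `s = (a,b)` to the generators of level `l`, and
`dl` is left multiplication by the matrix `dRow`. For `a ≤ 1`, `b ≤ 2`, `N ≥ 2` this complex is
exact below level three, where its cokernel is dual to `Y (-(N+1)) s` under
`h, z ↦ res ((Lam h) z)`.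
-/

noncomputable section

namespace Vale.Agent.P195.BRes

open ResR ResR.Gen Finset

variable {N : ℕ} {s : ℤ × ℤ}

/-- Families at the generators of level `l`. -/
def Co (N : ℕ) (s : ℤ × ℤ) (l : ℕ) : Submodule ℚ (Gen → Op) where
  carrier := {h | ∀ g : Gen, h g ∈ F (g.vtx.1 - s.1) ((g.vtx.2 : ℤ) - s.2) ∧
    (¬(g.Valid N ∧ g.lev = l) → h g = 0)}
  add_mem' hx hy g := ⟨add_mem (hx g).1 (hy g).1, fun hg => by simp [(hx g).2 hg, (hy g).2 hg]⟩
  zero_mem' _ := ⟨zero_mem _, fun _ => rfl⟩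
  smul_mem' c _ hx g := ⟨Submodule.smul_mem _ c (hx g).1, fun hg => by simp [(hx g).2 hg]⟩

/-- Left multiplication by the matrix of the differential. -/
def dl (N : ℕ) (h : Gen → Op) (g : Gen) : Op :=
  if g.Valid N then Finsupp.linearCombination Op h (dRow N g) else 0

theorem dl_sub (h h' : Gen → Op) : dl N (h - h') = dl N h - dl N h' := by
  funext g
  simp only [dl, Pi.sub_apply]
  split_ifs
  · simp only [Finsupp.linearCombination_apply, Finsupp.sum, Pi.sub_apply, smul_sub,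
      sum_sub_distrib]
  · simp

theorem lc_d (h : Gen → Op) (x : Row) :
    Finsupp.linearCombination Op h (d N x) = Finsupp.linearCombination Op (dl N h) x := by
  induction x using Finsupp.induction_linear with
  | zero => simp
  | add x y hx hy => simp only [map_add, hx, hy]
  | single g c =>
    unfold d mat dl
    simp only [Finsupp.linearCombination_single, map_smul]
    split_ifs <;> simp

theorem dl_dl (hN : 2 ≤ N) (h : Gen → Op) : dl N (dl N h) = 0 := by
  funext g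
  show (if g.Valid N then Finsupp.linearCombination Op (dl N h) (dRow N g) else 0) = 0
  split_ifs with hg
  · have e := congrArg (Finsupp.linearCombination Op h) (dd hN g)
    rw [mat_v (N := N), if_pos hg, lc_d, map_zero] at e
    exact e
  · rfl

theorem dl_mem {l : ℕ} {h : Gen → Op} (hh : h ∈ Co N s l) : dl N h ∈ Co N s (l + 1) := by
  intro g
  constructor
  · unfold dl
    split_ifs
    · rw [Finsupp.linearCombination_apply, Finsupp.sum]
      refine Submodule.sum_mem _ fun g' _ => ?_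
      have e := mul_mem_F (dRow_mem N g g') (hh g').1
      rw [show g'.vtx.1 - s.1 + dw g' g = g.vtx.1 - s.1 by ring,
        show (g'.vtx.2 : ℤ) - s.2 + (dk g' g + 0) = g.vtx.2 - s.2 by ring] at e
      exact e
    · exact zero_mem _
  · intro hg
    unfold dl
    split_ifs with hv
    · rw [Finsupp.linearCombination_apply, Finsupp.sum]
      refine sum_eq_zero fun g' hg' => ?_
      have hl : g'.Valid N ∧ g'.lev = g.lev - 1 := by
        by_contra hc
        exact Finsupp.mem_support_iff.1 hg' (dRow_lev g g' hc)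
      rw [(hh g').2 fun hc => hg ⟨hv, ?_⟩, smul_zero]
      rcases g with i | i | ⟨j, i⟩ | ⟨j, i⟩ | i | i
      case e => simp [dRow] at hg'
      all_goals (simp only [lev] at hl hc ⊢; omega)
    · rfl

/-- `h` only lives on valid generators. -/
def GSupp (N : ℕ) (h : Gen → Op) : Prop := ∀ g : Gen, ¬g.Valid N → h g = 0

theorem GSupp.of_mem {l : ℕ} {h : Gen → Op} (hh : h ∈ Co N s l) : GSupp N h := fun g hg =>
  (hh g).2 fun hc => hg hc.1

theorem lc_v {h : Gen → Op} (hh : GSupp N h) (g : Gen) :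
    Finsupp.linearCombination Op h (ResR.v N g) = h g := by
  unfold ResR.v
  split_ifs with hg
  · simp
  · simp [hh g hg]

theorem dl_r {h : Gen → Op} (hh : GSupp N h) (i : ℕ) :
    dl N h (r i) = kr N (fun k => h (e k)) i := by
  by_cases hi : i ≤ N
  · rw [dl, if_pos (show (r i).Valid N from hi), kr, if_pos hi]
    simp [dRow, lc_v hh]
  · rw [dl, if_neg (show ¬(r i).Valid N from hi), kr, if_neg hi]

/-! ### The Spencer parts -/

/-- The part of `∂x`. -/
def c0 (f : ℕ → Op) (i : ℕ) : Op :=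
  (D₀ * X₀ + (i : ℚ) • 1) * f (i + 1) + (if i = 0 then D₀ * X₁ else 0) * f 0

/-- The part of `∂y`. -/
def c1 (M : ℕ) (f : ℕ → Op) (i : ℕ) : Op :=
  D₁ * X₀ * f (i + 1) + ((M : ℚ) - i) • f i + (if i = 0 then D₁ * X₁ - 1 else 0) * f 0

theorem dl_q0 {h : Gen → Op} (hh : GSupp N h) {i : ℕ} (hi : i + 1 ≤ N) :
    dl N h (q 0 i) = kr (N - 1) (fun k => h (rho 0 k)) i - c0 (fun k => h (r k)) i := by
  rw [dl, if_pos (show (q 0 i).Valid N from hi), kr, if_pos (show i ≤ N - 1 by omega), c0]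
  simp only [dRow, map_sub, map_smul, lc_v hh, smul_eq_mul]
  abel

theorem dl_q1 {h : Gen → Op} (hh : GSupp N h) {i : ℕ} (hi : i + 1 ≤ N) :
    dl N h (q 1 i) = kr (N - 1) (fun k => h (rho 1 k)) i - c1 N (fun k => h (r k)) i := by
  rw [dl, if_pos (show (q 1 i).Valid N from hi), kr, if_pos (show i ≤ N - 1 by omega), c1]
  simp only [dRow, map_sub, map_smul, lc_v hh, smul_eq_mul, smul_mul_assoc, one_mul]
  abel

theorem dl_t {h : Gen → Op} (hh : GSupp N h) {i : ℕ} (hi : i + 2 ≤ N) :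
    dl N h (t i) = kr (N - 2) (fun k => h (Gen.s k)) i - c0 (fun k => h (q 1 k)) i
      + c1 (N - 1) (fun k => h (q 0 k)) i := by
  rw [dl, if_pos (show (t i).Valid N from hi), kr, if_pos (show i ≤ N - 2 by omega), c0, c1]
  rw [Nat.cast_sub (show 1 ≤ N by omega)]
  rcases i with _ | i
  · simp only [dRow, map_sub, map_add, map_smul, lc_v hh, smul_eq_mul, smul_mul_assoc, one_mul,
      ↓reduceIte, Nat.cast_one]
    abel
  · simp only [dRow, Nat.add_one_ne_zero, if_false, map_sub, map_add, map_smul, lc_v hh,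
      smul_eq_mul, smul_mul_assoc, one_mul, zero_mul, Nat.cast_one]
    abel

theorem D₁_pow_X₁ (k : ℕ) (g : Op) :
    D₁ * (X₁ ^ (k + 1) * g) = X₁ ^ (k + 1) * (D₁ * g) + ((k : ℚ) + 1) • (X₁ ^ k * g) := by
  induction k with
  | zero => simp [D₁_X₁']
  | succ k ih =>
    rw [pow_succ' X₁ (k + 1), mul_assoc, D₁_X₁', ih, mul_add, mul_smul_comm, ← mul_assoc X₁,
      ← pow_succ', ← mul_assoc X₁, ← pow_succ']
    push_cast
    module

theorem D₀_pow_X₀ (i : ℕ) (g : Op) :
    D₀ * (X₀ ^ (i + 1) * g) = X₀ ^ i * (D₀ * (X₀ * g)) + (i : ℚ) • (X₀ ^ i * g) := by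
  induction i with
  | zero => simp
  | succ i ih =>
    rw [pow_succ' X₀ (i + 1), mul_assoc, D₀_X₀', ih, mul_add, mul_smul_comm, ← mul_assoc X₀,
      ← pow_succ', ← mul_assoc X₀, ← pow_succ', pow_succ X₀ i, mul_assoc]
    push_cast
    module

theorem D₀_X₁_pow (k : ℕ) (g : Op) : D₀ * (X₁ ^ k * g) = X₁ ^ k * (D₀ * g) := by
  induction k with
  | zero => simp
  | succ k ih => rw [pow_succ', mul_assoc, D₀_X₁', ih, mul_assoc]

theorem D₁_X₀_pow (k : ℕ) (g : Op) : D₁ * (X₀ ^ k * g) = X₀ ^ k * (D₁ * g) := by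
  induction k with
  | zero => simp
  | succ k ih => rw [pow_succ', mul_assoc, D₁_X₀', ih, mul_assoc]

theorem X₀_X₁_pow (k : ℕ) (g : Op) : X₀ * (X₁ ^ k * g) = X₁ ^ k * (X₀ * g) := by
  induction k with
  | zero => simp
  | succ k ih => rw [pow_succ', mul_assoc, comm01, ih, mul_assoc]

theorem Lam_succ' (M : ℕ) (f : ℕ → Op) :
    Lam (M + 1) f =
      (∑ i ∈ range (M + 1), X₀ ^ (i + 1) * (X₁ ^ (M - i) * f (i + 1))) + X₁ ^ (M + 1) * f 0 := by
  unfold Lam
  rw [sum_range_succ']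
  simp

theorem Lam_c0 (M : ℕ) (f : ℕ → Op) : Lam M (c0 f) = D₀ * Lam (M + 1) f := by
  rw [Lam_succ', mul_add, mul_sum]
  unfold Lam c0
  simp only [mul_add, sum_add_distrib]
  congr 1
  · refine sum_congr rfl fun i _ => ?_
    rw [D₀_pow_X₀, add_mul, smul_mul_assoc, one_mul, mul_add, mul_smul_comm, mul_add,
      mul_smul_comm, X₀_X₁_pow, D₀_X₁_pow, mul_assoc]
  · rw [sum_range_succ', D₀_X₁_pow]
    simp [pow_succ, mul_assoc, D₀_X₁']

theorem Lam_c1 (M : ℕ) (f : ℕ → Op) : Lam M (c1 (M + 1) f) = D₁ * Lam (M + 1) f := by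
  have e : ∑ i ∈ range (M + 1),
      (((M + 1 : ℕ) : ℚ) - i) • (X₀ ^ i * (X₁ ^ (M - i) * f i)) =
      (∑ i ∈ range M, ((M : ℚ) - i) • (X₀ ^ (i + 1) * (X₁ ^ (M - 1 - i) * f (i + 1)))) +
        ((M : ℚ) + 1) • (X₁ ^ M * f 0) := by
    rw [sum_range_succ']
    congr 1
    · refine sum_congr rfl fun i _ => ?_
      rw [show M - (i + 1) = M - 1 - i by omega]
      congr 1
      push_cast
      ring
    · simp
  have e' : ∀ i ∈ range (M + 1), D₁ * (X₀ ^ (i + 1) * (X₁ ^ (M - i) * f (i + 1))) =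
      X₀ ^ i * (X₁ ^ (M - i) * (D₁ * (X₀ * f (i + 1)))) +
        ((M : ℚ) - i) • (X₀ ^ (i + 1) * (X₁ ^ (M - 1 - i) * f (i + 1))) := by
    intro i hi
    rw [mem_range] at hi
    rw [D₁_X₀_pow]
    rcases Nat.lt_or_ge i M with h | h
    · rw [show M - i = M - 1 - i + 1 by omega, D₁_pow_X₁, mul_add, mul_smul_comm,
        D₁_X₀', ← X₀_X₁_pow, ← mul_assoc (X₀ ^ i) X₀, ← pow_succ]
      congr 2
      rw [Nat.cast_sub (show i ≤ M - 1 by omega), Nat.cast_sub (show 1 ≤ M by omega)]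
      push_cast
      ring
    · obtain rfl : i = M := by omega
      simp [pow_succ, mul_assoc, D₁_X₀']
  rw [Lam_succ', mul_add, mul_sum, sum_congr rfl e', sum_add_distrib, sum_range_succ
    (fun i => ((M : ℚ) - i) • (X₀ ^ (i + 1) * (X₁ ^ (M - 1 - i) * f (i + 1)))) M, sub_self,
    zero_smul, add_zero, D₁_pow_X₁, add_assoc, add_left_comm _ (X₁ ^ (M + 1) * _), ← e]
  unfold Lam c1
  simp only [mul_add, sum_add_distrib, mul_smul_comm, mul_assoc, add_assoc]
  congr 1
  rw [add_comm]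
  congr 1
  rw [sum_range_succ']
  simp [pow_succ, mul_assoc, D₁_X₁', sub_mul]

/-! ### The chase -/

theorem Lam_kr_sub (M : ℕ) {g c : ℕ → Op} (hg : ∀ i, i < 1 ∨ M < i → g i = 0)
    (h : ∀ i ≤ M, kr M g i - c i = 0) : Lam M c = 0 := by
  rw [Lam_congr (g := kr M g) fun i hi => (sub_eq_zero.1 (h i hi)).symm, Lam_kr_eq_zero hg]

/-- The table of an `h` at the generators `c i`. -/
abbrev tab (h : Gen → Op) (c : ℕ → Gen) : ℕ → Op := fun i => h (c i)

theorem tab_rho {h : Gen → Op} (hh : GSupp N h) (j : Fin 2) :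
    ∀ i, i < 1 ∨ N - 1 < i → tab h (rho j) i = 0 :=
  fun i hi => hh _ (by simp only [Valid]; omega)

theorem tab_s {h : Gen → Op} (hh : GSupp N h) :
    ∀ i, i < 1 ∨ N - 2 < i → tab h Gen.s i = 0 :=
  fun i hi => hh _ (by simp only [Valid]; omega)

theorem tab_e {h : Gen → Op} (hh : GSupp N h) : ∀ i, i < 1 ∨ N < i → tab h e i = 0 :=
  fun i hi => hh _ (by simp only [Valid]; omega)

/-- Injective at level zero. -/
theorem col_zero {h : Gen → Op} (hh : h ∈ Co N s 0) (hd : dl N h = 0) : h = 0 := by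
  have hs := GSupp.of_mem hh
  have e := kr_inj (M := N) (tab_e hs) fun i _ => by rw [← dl_r hs, hd]; rfl
  funext g
  by_cases hg : g.Valid N ∧ g.lev = 0
  · cases g with
    | e i => exact congrFun e i
    | _ => simp [lev] at hg
  · exact (hh g).2 hg

/-- A family on `r` only. -/
def onR (f : ℕ → Op) : Gen → Op
  | r i => f i
  | _ => 0

/-- A family on `e` only. -/
def onE (f : ℕ → Op) : Gen → Op
  | e i => f i
  | _ => 0

/-- A family on `rho` only. -/
def onRho (f : Fin 2 → ℕ → Op) : Gen → Op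
  | rho j i => f j i
  | _ => 0

/-- A family on `q` only. -/
def onQ (f : Fin 2 → ℕ → Op) : Gen → Op
  | q j i => f j i
  | _ => 0

/-- A family on `s` only. -/
def onS (f : ℕ → Op) : Gen → Op
  | Gen.s i => f i
  | _ => 0

theorem onR_mem {f : ℕ → Op} (hf : ∀ i, f i ∈ F (-s.1 + 1) (-s.2) ∧ (N < i → f i = 0)) :
    onR f ∈ Co N s 1 := fun g => by
  cases g with
  | r i =>
    refine ⟨?_, fun hg => (hf i).2 (by simp [Valid, lev] at hg; omega)⟩
    simpa [onR, vtx, sub_eq_add_neg, add_comm] using (hf i).1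
  | _ => exact ⟨zero_mem _, fun _ => rfl⟩

theorem onE_mem {f : ℕ → Op} (hf : ∀ i, f i ∈ F (-s.1) (-s.2) ∧ (i < 1 ∨ N < i → f i = 0)) :
    onE f ∈ Co N s 0 := fun g => by
  cases g with
  | e i =>
    refine ⟨?_, fun hg => (hf i).2 (by simp [Valid, lev] at hg; omega)⟩
    simpa [onE, vtx] using (hf i).1
  | _ => exact ⟨zero_mem _, fun _ => rfl⟩

theorem onRho_mem {f : Fin 2 → ℕ → Op}
    (hf : ∀ j i, f j i ∈ F (-s.1) (1 - s.2) ∧ (i < 1 ∨ N - 1 < i → f j i = 0)) :
    onRho f ∈ Co N s 1 := fun g => by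
  cases g with
  | rho j i =>
    refine ⟨?_, fun hg => (hf j i).2 (by simp [Valid, lev] at hg; omega)⟩
    simpa [onRho, vtx] using (hf j i).1
  | _ => exact ⟨zero_mem _, fun _ => rfl⟩

theorem onQ_mem (hN : 1 ≤ N) {f : Fin 2 → ℕ → Op}
    (hf : ∀ j i, f j i ∈ F (-s.1 + 1) (1 - s.2) ∧ (N - 1 < i → f j i = 0)) :
    onQ f ∈ Co N s 2 := fun g => by
  cases g with
  | q j i =>
    refine ⟨?_, fun hg => (hf j i).2 (by simp [Valid, lev] at hg; omega)⟩
    simpa [onQ, vtx, sub_eq_add_neg, add_comm] using (hf j i).1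
  | _ => exact ⟨zero_mem _, fun _ => rfl⟩

theorem onS_mem {f : ℕ → Op}
    (hf : ∀ i, f i ∈ F (-s.1) (2 - s.2) ∧ (i < 1 ∨ N - 2 < i → f i = 0)) :
    onS f ∈ Co N s 2 := fun g => by
  cases g with
  | s i =>
    refine ⟨?_, fun hg => (hf i).2 (by simp [Valid, lev] at hg; omega)⟩
    simpa [onS, vtx] using (hf i).1
  | _ => exact ⟨zero_mem _, fun _ => rfl⟩

/-- Exact at level one. -/
theorem col_one (hN : 2 ≤ N) {h : Gen → Op} (hh : h ∈ Co N s 1)
    (hd : dl N h = 0) : ∃ x ∈ Co N s 0, dl N x = h := by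
  have hs := GSupp.of_mem hh
  have hf : ∀ i, tab h r i ∈ F (-s.1 + 1) (-s.2) := fun i => by
    simpa [vtx, sub_eq_add_neg, add_comm] using (hh (r i)).1
  have hL : Lam N (tab h r) = 0 := by
    have e := Lam_kr_sub (N - 1) (tab_rho hs 0) (c := c0 (tab h r)) fun i hi => by
      rw [← dl_q0 hs (by omega), hd]; rfl
    rw [Lam_c0, show N - 1 + 1 = N by omega] at e
    exact D₀_mul_cancel (Lam_mem hf) e
  obtain ⟨g, hg, hgk⟩ := Lam_mid N hf hL
  have hx : onE g ∈ Co N s 0 := onE_mem hg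
  refine ⟨_, hx, (sub_eq_zero.1 ?_).symm⟩
  have h' : h - dl N (onE g) ∈ Co N s 1 := sub_mem hh (dl_mem hx)
  have hd' : dl N (h - dl N (onE g)) = 0 := by rw [dl_sub, hd, dl_dl hN, sub_zero]
  set h₁ := h - dl N (onE g) with hh₁
  have hr : ∀ i, h₁ (r i) = 0 := fun i => by
    by_cases hi : i ≤ N
    · rw [hh₁, Pi.sub_apply, dl_r (GSupp.of_mem hx)]
      exact sub_eq_zero.2 (hgk i hi).symm
    · exact (h' _).2 (by simp [Valid, hi])
  have hrho : ∀ j : Fin 2, tab h₁ (rho j) = 0 := fun j =>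
    kr_inj (M := N - 1) (tab_rho (GSupp.of_mem h') j) fun i hi => by
      fin_cases j
      · have e := dl_q0 (GSupp.of_mem h') (i := i) (by omega)
        rw [hd'] at e
        simpa [c0, hr] using e.symm
      · have e := dl_q1 (GSupp.of_mem h') (i := i) (by omega)
        rw [hd'] at e
        simpa [c1, hr] using e.symm
  funext g'
  cases g' with
  | r i => exact hr i
  | rho j i => exact congrFun (hrho j) i
  | _ => exact (h' _).2 (by simp [lev])

theorem Lam_t (hN : 2 ≤ N) {h : Gen → Op} (hh : GSupp N h) {w : ℕ → Op}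
    (hw : ∀ i ≤ N - 2, dl N h (t i) = w i) :
    Lam (N - 2) w =
      -(D₀ * Lam (N - 1) (tab h (q 1))) + D₁ * Lam (N - 1) (tab h (q 0)) := by
  obtain ⟨M, rfl⟩ : ∃ M, N = M + 2 := ⟨N - 2, by omega⟩
  simp only [Nat.add_sub_cancel, show M + 2 - 1 = M + 1 by omega] at hw ⊢
  rw [← Lam_congr fun i hi => hw i hi, Lam_congr (g := fun i => kr M (tab h Gen.s) i
      - c0 (tab h (q 1)) i + c1 (M + 1) (tab h (q 0)) i) fun i hi => dl_t hh (by omega)]
  have hz : ∀ i, i < 1 ∨ M < i → tab h Gen.s i = 0 :=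
    fun i hi => hh _ (by simp only [Valid]; omega)
  rw [← Lam_c0, ← Lam_c1, ← zero_add (-Lam M _), ← Lam_kr_eq_zero hz]
  simp only [Lam, mul_add, mul_sub, sum_add_distrib, sum_sub_distrib]
  abel

/-- Exact at level two. -/
theorem col_two (hN : 2 ≤ N) (ha : s.1 ≤ 1) {h : Gen → Op} (hh : h ∈ Co N s 2)
    (hd : dl N h = 0) : ∃ x ∈ Co N s 1, dl N x = h := by
  have hs := GSupp.of_mem hh
  have hq : ∀ j i, tab h (q j) i ∈ F (-s.1 + 1) (1 - s.2) := fun j i => by
    simpa [vtx, sub_eq_add_neg, add_comm] using (hh (q j i)).1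
  have e := Lam_t hN hs (w := 0) fun i _ => by rw [hd]; rfl
  rw [show Lam (N - 2) (0 : ℕ → Op) = 0 by simp [Lam]] at e
  have hm : ∀ j, Lam (N - 1) (tab h (q j)) ∈ F ((-s.1 + 1 + N) - 1) (-s.2 + 1) := fun j => by
    have := Lam_mem (M := N - 1) (hq j)
    rwa [show -s.1 + 1 + ((N - 1 : ℕ) : ℤ) = -s.1 + 1 + N - 1 by omega,
      show (1 : ℤ) - s.2 = -s.2 + 1 by ring] at this
  obtain ⟨φ, hφ, e0, e1⟩ := deRham_mid (hm 0) (hm 1) (neg_add_eq_zero.1 e.symm)
  obtain ⟨f, hf, rfl⟩ := Lam_surj N (show 0 ≤ -s.1 + 1 by omega) hφ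
  have hx : onR f ∈ Co N s 1 := onR_mem hf
  set h₁ := h + dl N (onR f) with hh₁
  have h' : h₁ ∈ Co N s 2 := add_mem hh (dl_mem hx)
  have hL : ∀ j, Lam (N - 1) (tab h₁ (q j)) = 0 := by
    have hxs := GSupp.of_mem hx
    refine Fin.forall_fin_two.2 ⟨?_, ?_⟩
    · rw [show tab h₁ (q 0) = tab h (q 0) + tab (dl N (onR f)) (q 0) from rfl]
      rw [Lam_congr (g := tab h (q 0) - c0 f) fun i hi => by
        simp only [Pi.add_apply, Pi.sub_apply, tab, dl_q0 hxs (show i + 1 ≤ N by omega)]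
        simp [kr, onR]
        abel]
      rw [Lam_sub, Lam_c0, show N - 1 + 1 = N by omega, e0, sub_self]
    · rw [show tab h₁ (q 1) = tab h (q 1) + tab (dl N (onR f)) (q 1) from rfl]
      rw [Lam_congr (g := tab h (q 1) - c1 N f) fun i hi => by
        simp only [Pi.add_apply, Pi.sub_apply, tab, dl_q1 hxs (show i + 1 ≤ N by omega)]
        simp [kr, onR]
        abel]
      obtain ⟨M, rfl⟩ : ∃ M, N = M + 1 := ⟨N - 1, by omega⟩
      rw [Lam_sub, Nat.add_sub_cancel, Lam_c1, e1, Nat.add_sub_cancel, sub_self]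
  have hq' : ∀ j i, tab h₁ (q j) i ∈ F (-s.1 + 1) (1 - s.2) := fun j i => by
    simpa [vtx, sub_eq_add_neg, add_comm] using (h' (q j i)).1
  choose g hg hgk using fun j => Lam_mid (N - 1) (hq' j) (hL j)
  have hy : onRho g ∈ Co N s 1 := onRho_mem hg
  refine ⟨onRho g - onR f, sub_mem hy hx, ?_⟩
  have h'' : h₁ - dl N (onRho g) ∈ Co N s 2 := sub_mem h' (dl_mem hy)
  have hd'' : dl N (h₁ - dl N (onRho g)) = 0 := by
    have : h₁ - dl N (onRho g) = h - (dl N (onRho g) - dl N (onR f)) := by rw [hh₁]; abel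
    rw [this, dl_sub, hd, ← dl_sub, dl_dl hN, sub_zero]
  set h₂ := h₁ - dl N (onRho g) with hh₂
  have hq2 : ∀ j i, h₂ (q j i) = 0 := fun j i => by
    by_cases hi : i + 1 ≤ N
    · rw [hh₂, Pi.sub_apply]
      obtain rfl | rfl : j = 0 ∨ j = 1 := by omega
      · rw [dl_q0 (GSupp.of_mem hy) hi]
        simpa [c0, onRho, tab, sub_eq_zero] using (hgk 0 i (by omega)).symm
      · rw [dl_q1 (GSupp.of_mem hy) hi]
        simpa [c1, onRho, tab, sub_eq_zero] using (hgk 1 i (by omega)).symm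
    · exact (h'' _).2 (by simp [Valid, hi])
  have hs2 : tab h₂ Gen.s = 0 := kr_inj (M := N - 2) (tab_s (GSupp.of_mem h'')) fun i hi => by
    have e := dl_t (GSupp.of_mem h'') (i := i) (by omega)
    rw [hd''] at e
    simpa [c0, c1, hq2] using e.symm
  have hz : h₂ = 0 := by
    funext g'
    cases g' with
    | q j i => exact hq2 j i
    | s i => exact congrFun hs2 i
    | _ => exact (h'' _).2 (by simp [lev])
  rw [dl_sub]
  have : h₂ = h - (dl N (onRho g) - dl N (onR f)) := by rw [hh₂, hh₁]; abel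
  exact (sub_eq_zero.1 (this ▸ hz)).symm

/-! ### Level three -/

/-- The functional of a family at level three. -/
def colRes (N : ℕ) (h : Gen → Op) : T →ₗ[ℚ] ℚ := res.comp (Lam (N - 2) (tab h t))

theorem Lam_t_mem (hN : 2 ≤ N) {h : Gen → Op} {l : ℕ} (hh : h ∈ Co N s l) :
    Lam (N - 2) (tab h t) ∈ F ((-s.1 + 1 + N) - 2) (-s.2 + 2) := by
  have := Lam_mem (M := N - 2) (f := tab h t) (w := -s.1 + 1) (j := 2 - s.2) fun i => by
    simpa [vtx, sub_eq_add_neg, add_comm] using (hh (t i)).1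
  rwa [show -s.1 + 1 + ((N - 2 : ℕ) : ℤ) = -s.1 + 1 + N - 2 by omega,
    show (2 : ℤ) - s.2 = -s.2 + 2 by ring] at this

/-- The image at level three is what `colRes` kills. -/
theorem col_three (hN : 2 ≤ N) (ha : s.1 ≤ 1) {h : Gen → Op}
    (hh : h ∈ Co N s 3) :
    (∃ x ∈ Co N s 2, dl N x = h) ↔ ∀ z : Y (-((N : ℤ) + 1)) s, colRes N h z.1 = 0 := by
  constructor
  · rintro ⟨x, hx, rfl⟩ z
    rw [colRes, Lam_t hN (GSupp.of_mem hx) (w := tab (dl N x) t) (fun i _ => rfl)]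
    simp [res_D₀, res_D₁]
  · intro hz
    have hL := Lam_t_mem hN hh
    obtain ⟨a, ha', b, hb', e⟩ := deRham_top hL fun p q hpq => by
      rw [← res_single hL]
      exact hz ⟨_, Finsupp.single_mem_supported ℚ _ (show _ ∈ negSet _ by
        refine ⟨by simp only; omega, by simp only; omega, by simp only; omega⟩)⟩
    have cast : ∀ {u : Op}, u ∈ F (-s.1 + 1 + N - 1) (-s.2 + 1) →
        u ∈ F (-s.1 + 1 + ((N - 1 : ℕ) : ℤ)) (1 - s.2) := fun {u} hu => by
      rwa [show -s.1 + 1 + ((N - 1 : ℕ) : ℤ) = -s.1 + 1 + N - 1 by omega,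
        show (1 : ℤ) - s.2 = -s.2 + 1 by ring]
    obtain ⟨f1, hf1, e1⟩ := Lam_surj (j := 1 - s.2) (N - 1) (show 0 ≤ -s.1 + 1 by omega)
      (cast (neg_mem ha'))
    obtain ⟨f0, hf0, e0⟩ := Lam_surj (j := 1 - s.2) (N - 1) (show 0 ≤ -s.1 + 1 by omega)
      (cast hb')
    have hx : onQ ![f0, f1] ∈ Co N s 2 := onQ_mem (by omega) fun j i => by
      fin_cases j
      · exact hf0 i
      · exact hf1 i
    set h₁ := h - dl N (onQ ![f0, f1]) with hh₁
    have h' : h₁ ∈ Co N s 3 := sub_mem hh (dl_mem hx)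
    have hL' : Lam (N - 2) (tab h₁ t) = 0 := by
      rw [show tab h₁ t = tab h t - tab (dl N (onQ ![f0, f1])) t from rfl, Lam_sub,
        Lam_t hN (GSupp.of_mem hx) (w := tab (dl N (onQ ![f0, f1])) t) (fun i _ => rfl),
        show tab (onQ ![f0, f1]) (q 1) = f1 from rfl, show tab (onQ ![f0, f1]) (q 0) = f0 from rfl,
        e1, e0, mul_neg', neg_neg, e, sub_self]
    obtain ⟨g, hg, hgk⟩ := Lam_mid (N - 2) (f := tab h₁ t) (w := -s.1) (j := 2 - s.2) (fun i => by
      simpa [vtx, sub_eq_add_neg, add_comm] using (h' (t i)).1) hL'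
    have hy : onS g ∈ Co N s 2 := onS_mem hg
    refine ⟨onQ ![f0, f1] + onS g, add_mem hx hy, ?_⟩
    have e2 : dl N (onS g) = h₁ := by
      funext g'
      by_cases hg' : g'.Valid N ∧ g'.lev = 3
      · cases g' with
        | t i =>
          have hi : i + 2 ≤ N := hg'.1
          rw [dl_t (GSupp.of_mem hy) hi]
          simpa [c0, c1, onS, tab] using hgk i (by omega)
        | _ => simp [lev] at hg'
      · rw [(h' g').2 hg', ((dl_mem hy) g').2 hg']
    have : dl N (onQ ![f0, f1] + onS g) = dl N (onQ ![f0, f1]) + dl N (onS g) := by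
      have e3 := dl_sub (N := N) (onQ ![f0, f1] + onS g) (onS g)
      rw [add_sub_cancel_right] at e3
      rw [e3]
      abel
    rw [this, e2, hh₁]
    abel

/-- Every functional on `Y` occurs. -/
theorem col_pair (hN : 2 ≤ N) (ha : s.1 ≤ 1) (hb : s.2 ≤ 2)
    (φ : Module.Dual ℚ (Y (-((N : ℤ) + 1)) s)) :
    ∃ h ∈ Co N s 3, ∀ z : Y (-((N : ℤ) + 1)) s, colRes N h z.1 = φ z := by
  classical
  obtain ⟨D, hD⟩ : ∃ D : ℕ, (D : ℤ) = -s.1 + 1 + N - 2 :=
    ⟨(-s.1 + 1 + N - 2).toNat, by omega⟩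
  let c : ℤ × ℤ → ℚ := fun e => if he : e ∈ negSet (-((N : ℤ) + 1) + s.1) then
    φ ⟨Finsupp.single e 1, Finsupp.single_mem_supported ℚ _ he⟩ else 0
  let G : Op := ∑ p ∈ range (D + 1),
    c (-(p : ℤ) - 1, -((D - p : ℕ) : ℤ) - 1) • am (p, D - p, 0, 0)
  have hG : G ∈ F (-s.1 + 1 + ((N - 2 : ℕ) : ℤ)) (2 - s.2) := by
    rw [F_eq_AM]
    refine Submodule.sum_mem _ fun p hp => Submodule.smul_mem _ _ (am_mem ?_)
    rw [mem_range] at hp
    exact ⟨by simp only; omega, by simp only; omega⟩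
  obtain ⟨f, hf, hfG⟩ := Lam_surj (N - 2) (show 0 ≤ -s.1 + 1 by omega) hG
  let h : Gen → Op := fun g => match g with
    | t i => f i
    | _ => 0
  have hh : h ∈ Co N s 3 := fun g => by
    cases g with
    | t i =>
      refine ⟨?_, fun hg => (hf i).2 (by simp [Valid, lev] at hg; omega)⟩
      simpa [h, vtx, sub_eq_add_neg, add_comm] using (hf i).1
    | _ => exact ⟨zero_mem _, fun _ => rfl⟩
  refine ⟨h, hh, fun z => ?_⟩
  have key : ∀ e ∈ negSet (-((N : ℤ) + 1) + s.1), res (G (Finsupp.single e 1)) = c e := by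
    intro e he
    obtain ⟨p, hp⟩ : ∃ p : ℕ, e.1 = -(p : ℤ) - 1 :=
      ⟨(-e.1 - 1).toNat, by have := he.1; omega⟩
    obtain ⟨q, hq⟩ : ∃ q : ℕ, e.2 = -(q : ℤ) - 1 :=
      ⟨(-e.2 - 1).toNat, by have := he.2.1; omega⟩
    have hpq := he.2.2
    obtain rfl : q = D - p := by omega
    rw [show e = (-(p : ℤ) - 1, -((D - p : ℕ) : ℤ) - 1) from Prod.ext hp hq, res_single hG]
    simp only [G, map_sum, map_smul, co_am, Prod.mk.injEq, and_true, smul_eq_mul, mul_ite, mul_one,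
      mul_zero]
    rw [sum_eq_single_of_mem p (mem_range.2 (by omega)) fun b _ hb => if_neg fun h => hb h.1]
    simp
  have hz : z = ∑ e ∈ z.1.support.attach, z.1 e.1 •
      (⟨Finsupp.single e.1 1, Finsupp.single_mem_supported ℚ _ (z.2 e.2)⟩ :
        Y (-((N : ℤ) + 1)) s) := by
    apply Subtype.ext
    rw [Submodule.coe_sum]
    simp only [Submodule.coe_smul, Finsupp.smul_single, smul_eq_mul, mul_one]
    rw [sum_attach z.1.support fun e => Finsupp.single e (z.1 e)]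
    exact z.1.sum_single.symm
  rw [hz]
  simp only [Submodule.coe_sum, Submodule.coe_smul, map_sum, map_smul]
  refine sum_congr rfl fun e _ => ?_
  congr 1
  rw [colRes, LinearMap.comp_apply, show tab h t = f from rfl, hfG, key e.1 (z.2 e.2)]
  exact dif_pos (z.2 e.2)

end Vale.Agent.P195.BRes
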