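import Vale.Agent.P195.BRes.Coord
import Vale.Agent.P195.KoszulF

/-!
# P195, columns of the `B`-resolution: auxiliary exactness

Left multiplication. The Kronecker map `g ↦ (x g_(i+1) - y g_i)_(i ≤ M)` is injective, its image is
the kernel of `Lam f = ∑ x^i y^(M-i) f_i`, and `Lam` is onto. The complex
`F w k → F (w-1) (k+1)^2 → F (w-2) (k+2)` of left multiplication by `∂x, ∂y` is exact in the first
two places; its cokernel is read off the coefficient at `x⁻¹ y⁻¹`.
-/

noncomputable section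

namespace Vale.Agent.P195.BRes

open Finset
open Finsupp (single)

variable {M : ℕ} {w j k : ℤ}

theorem comm01 (f : Op) : X₀ * (X₁ * f) = X₁ * (X₀ * f) := by
  rw [← mul_assoc, X₀_comm_X₁, mul_assoc]

theorem X₀_pow_mul_mem (i : ℕ) {f : Op} (hf : f ∈ F w j) : X₀ ^ i * f ∈ F (w + i) j := by
  induction i with
  | zero => simpa using hf
  | succ i ih =>
    rw [pow_succ', mul_assoc, show w + ((i + 1 : ℕ) : ℤ) = w + i + 1 by push_cast; ring]
    exact X₀_mul_mem ih

theorem X₁_pow_mul_mem (i : ℕ) {f : Op} (hf : f ∈ F w j) : X₁ ^ i * f ∈ F (w + i) j := by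
  induction i with
  | zero => simpa using hf
  | succ i ih =>
    rw [pow_succ', mul_assoc, show w + ((i + 1 : ℕ) : ℤ) = w + i + 1 by push_cast; ring]
    exact X₁_mul_mem ih

theorem mul_neg' (a b : Op) : a * -b = -(a * b) := mul_neg a b

theorem X₁_X₀_pow (i : ℕ) (f : Op) : X₁ * (X₀ ^ i * f) = X₀ ^ i * (X₁ * f) := by
  induction i with
  | zero => simp
  | succ i ih => rw [pow_succ', mul_assoc, ← comm01, ih, mul_assoc]

/-! ### Kronecker columns -/

/-- The Kronecker map. -/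
def kr (M : ℕ) (g : ℕ → Op) (i : ℕ) : Op := if i ≤ M then X₀ * g (i + 1) - X₁ * g i else 0

/-- The pairing with the monomials of degree `M`. -/
def Lam (M : ℕ) (f : ℕ → Op) : Op := ∑ i ∈ range (M + 1), X₀ ^ i * (X₁ ^ (M - i) * f i)

theorem Lam_zero (f : ℕ → Op) : Lam 0 f = f 0 := by simp [Lam]

theorem Lam_succ (f : ℕ → Op) : Lam (M + 1) f = X₁ * Lam M f + X₀ ^ (M + 1) * f (M + 1) := by
  unfold Lam
  rw [sum_range_succ, mul_sum]
  simp only [Nat.sub_self, pow_zero, one_mul]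
  refine congrArg (· + _) (sum_congr rfl fun i hi => ?_)
  rw [mem_range] at hi
  rw [X₁_X₀_pow, ← mul_assoc X₁, ← pow_succ', show M - i + 1 = M + 1 - i by omega]

theorem Lam_sub (f g : ℕ → Op) : Lam M (f - g) = Lam M f - Lam M g := by
  simp [Lam, mul_sub, sum_sub_distrib]

theorem Lam_mem {f : ℕ → Op} (hf : ∀ i, f i ∈ F w j) : Lam M f ∈ F (w + M) j := by
  refine Submodule.sum_mem _ fun i hi => ?_
  rw [mem_range] at hi
  have h := X₀_pow_mul_mem i (X₁_pow_mul_mem (M - i) (hf i))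
  rwa [show w + ((M - i : ℕ) : ℤ) + (i : ℤ) = w + M by omega] at h

theorem Lam_congr {f g : ℕ → Op} (h : ∀ i ≤ M, f i = g i) : Lam M f = Lam M g :=
  sum_congr rfl fun i hi => by rw [h i (by rw [mem_range] at hi; omega)]

theorem Lam_kr (g : ℕ → Op) : ∀ M, g 0 = 0 → Lam M (kr M g) = X₀ ^ (M + 1) * g (M + 1)
  | 0, h => by simp [Lam_zero, kr, h]
  | M + 1, h => by
    rw [Lam_succ, Lam_congr (g := kr M g) (fun i hi => by simp [kr, hi, show i ≤ M + 1 by omega]),
      Lam_kr g M h, kr, if_pos le_rfl, mul_sub, X₁_X₀_pow, ← mul_assoc (X₀ ^ (M + 1)) X₀,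
      ← pow_succ]
    abel

theorem Lam_kr_eq_zero {g : ℕ → Op} (h : ∀ i, i < 1 ∨ M < i → g i = 0) : Lam M (kr M g) = 0 := by
  rw [Lam_kr g M (h 0 (by omega)), h (M + 1) (by omega), mul_zero]

theorem kr_inj {g : ℕ → Op} (hg : ∀ i, i < 1 ∨ M < i → g i = 0) (h : ∀ i ≤ M, kr M g i = 0) :
    g = 0 := by
  funext i
  induction i with
  | zero => exact hg 0 (by omega)
  | succ i ih =>
    by_cases hi : i ≤ M
    · have e := h i hi
      rw [kr, if_pos hi, ih, Pi.zero_apply, mul_zero, sub_zero] at e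
      exact X₀_mul_cancel (by rw [e, Pi.zero_apply, mul_zero])
    · exact hg _ (by omega)

theorem pow_X₀_factor (i : ℕ) : ∀ {w : ℤ} {g h : Op}, g ∈ F w j → h ∈ F (w + i - 1) j →
    X₀ ^ i * g + X₁ * h = 0 → ∃ u ∈ F (w - 1) j, g = X₁ * u := by
  induction i with
  | zero =>
    intro w g h _ hh e
    refine ⟨-h, neg_mem (by simpa using hh), ?_⟩
    rw [mul_neg']
    simpa [add_eq_zero_iff_eq_neg] using e
  | succ i ih =>
    intro w g h hg hh e
    rw [pow_succ', mul_assoc] at e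
    obtain ⟨u, hu, e1, -⟩ := leftK_mid (w := w + i + 1) (k := j)
      (by have := X₀_pow_mul_mem i hg; rwa [show w + (i : ℤ) + 1 - 1 = w + i by ring])
      (by rwa [show w + (i : ℤ) + 1 - 1 = w + ((i + 1 : ℕ) : ℤ) - 1 by push_cast; ring]) e
    refine ih (h := -u) hg ?_ ?_
    · rw [show w + (i : ℤ) - 1 = w + i + 1 - 2 by ring]
      exact neg_mem hu
    · rw [mul_neg', e1, add_neg_cancel]

theorem Lam_mid : ∀ (M : ℕ) {f : ℕ → Op}, (∀ i, f i ∈ F (w + 1) j) → Lam M f = 0 →
    ∃ g : ℕ → Op, (∀ i, g i ∈ F w j ∧ (i < 1 ∨ M < i → g i = 0)) ∧ ∀ i ≤ M, kr M g i = f i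
  | 0, f, _, h => ⟨0, fun i => ⟨zero_mem _, fun _ => rfl⟩, fun i hi => by
      rw [Lam_zero] at h
      obtain rfl : i = 0 := by omega
      simp [kr, h]⟩
  | M + 1, f, hf, h => by
    rw [Lam_succ, add_comm] at h
    obtain ⟨u, hu, hfu⟩ := pow_X₀_factor (j := j) (M + 1) (hf (M + 1))
      (by
        have := Lam_mem (M := M) hf
        rwa [show w + 1 + ((M + 1 : ℕ) : ℤ) - 1 = w + 1 + M by push_cast; ring]) h
    rw [add_sub_cancel_right] at hu
    let f' : ℕ → Op := Function.update f M (f M + X₀ * u)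
    have hf' : ∀ i, f' i ∈ F (w + 1) j := fun i => by
      by_cases hi : i = M
      · subst hi; simpa [f'] using add_mem (hf i) (X₀_mul_mem hu)
      · simpa [f', Function.update_of_ne hi] using hf i
    have h' : Lam M f' = 0 := by
      have e : Lam M f' = Lam M f + X₀ ^ M * (X₀ * u) := by
        unfold Lam
        rw [sum_range_succ, sum_range_succ, sum_congr rfl (g := fun i => X₀ ^ i * (X₁ ^ (M - i) * f i))
          fun i hi => by
            rw [mem_range] at hi
            rw [show f' i = f i from Function.update_of_ne (by omega) _ _]]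
        simp [f', mul_add, add_assoc]
      refine X₁_mul_cancel ?_
      rw [e, mul_add, mul_zero, X₁_X₀_pow, ← comm01, ← mul_assoc (X₀ ^ M), ← pow_succ, ← hfu,
        ← add_comm (X₀ ^ (M + 1) * _), h]
    obtain ⟨g, hg, hk⟩ := Lam_mid M hf' h'
    refine ⟨Function.update g (M + 1) (-u), fun i => ?_, fun i hi => ?_⟩
    · by_cases hi : i = M + 1
      · subst hi
        simp only [Function.update_self]
        exact ⟨neg_mem hu, fun h => by omega⟩
      · rw [Function.update_of_ne hi]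
        exact ⟨(hg i).1, fun h => (hg i).2 (by omega)⟩
    · rw [kr, if_pos hi]
      rcases Nat.lt_or_ge i M with h1 | h1
      · rw [Function.update_of_ne (by omega), Function.update_of_ne (by omega)]
        have := hk i h1.le
        rwa [kr, if_pos h1.le, show f' i = f i from Function.update_of_ne (by omega) _ _] at this
      · rcases Nat.lt_or_ge M i with h2 | h2
        · obtain rfl : i = M + 1 := by omega
          rw [Function.update_self, Function.update_of_ne (by omega),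
            (hg (M + 1 + 1)).2 (by omega), mul_neg', mul_zero, zero_sub, neg_neg, hfu]
        · obtain rfl : i = M := by omega
          rw [Function.update_self, Function.update_of_ne (by omega)]
          have := hk i le_rfl
          rw [kr, if_pos le_rfl, (hg (i + 1)).2 (by omega), mul_zero, zero_sub,
            show f' i = f i + X₀ * u from Function.update_self _ _ _] at this
          rw [mul_neg', sub_eq_add_neg, this]
          abel

theorem Lam_surj : ∀ (M : ℕ) {w : ℤ}, 0 ≤ w + 1 → ∀ {h : Op}, h ∈ F (w + 1 + M) j →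
    ∃ f : ℕ → Op, (∀ i, f i ∈ F (w + 1) j ∧ (M < i → f i = 0)) ∧ Lam M f = h
  | 0, w, _, h, hh => ⟨fun i => if i = 0 then h else 0, fun i => by
      constructor
      · dsimp only
        split_ifs
        · simpa using hh
        · exact zero_mem _
      · exact fun hi => if_neg (by omega), by simp [Lam_zero]⟩
  | M + 1, w, hw, h, hh => by
    obtain ⟨g₀, h₀, g₁, h₁, rfl⟩ := leftK_surj (by push_cast; omega) hh
    have e : w + 1 + ((M + 1 : ℕ) : ℤ) - 1 = w + 1 + M := by push_cast; ring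
    rw [e] at h₀ h₁
    obtain ⟨f₀, hf₀, rfl⟩ := Lam_surj M hw h₀
    obtain ⟨f₁, hf₁, rfl⟩ := Lam_surj M hw h₁
    refine ⟨fun i => (if i = 0 then 0 else f₀ (i - 1)) + f₁ i, fun i => ⟨?_, fun hi => ?_⟩, ?_⟩
    · dsimp only
      refine add_mem ?_ (hf₁ i).1
      split_ifs
      · exact zero_mem _
      · exact (hf₀ _).1
    · simp [(hf₀ (i - 1)).2 (by omega), (hf₁ i).2 (by omega)]
    · unfold Lam
      simp only [mul_add, sum_add_distrib]
      congr 1
      · rw [sum_range_succ', mul_sum]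
        simp only [Nat.add_one_ne_zero, if_false, Nat.add_sub_cancel, ↓reduceIte, mul_zero,
          add_zero, Nat.add_sub_add_right]
        refine sum_congr rfl fun i _ => ?_
        rw [pow_succ', mul_assoc]
      · rw [sum_range_succ, (hf₁ (M + 1)).2 (by omega), mul_zero, mul_zero, add_zero, mul_sum]
        refine sum_congr rfl fun i hi => ?_
        rw [mem_range] at hi
        rw [X₁_X₀_pow, ← mul_assoc X₁, ← pow_succ', show M - i + 1 = M + 1 - i by omega]

/-! ### Left multiplication by `∂x, ∂y` -/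

/-- Divide by `∂x` on the left. -/
def sh0 : Op →ₗ[ℚ] Op :=
  (Finsupp.linearCombination ℚ fun m : ℕ × ℕ × ℕ × ℕ =>
    if m.2.2.1 = 0 then 0 else am (m.1, m.2.1, m.2.2.1 - 1, m.2.2.2)).comp coL

/-- Divide by `∂y` on the left. -/
def sh1 : Op →ₗ[ℚ] Op :=
  (Finsupp.linearCombination ℚ fun m : ℕ × ℕ × ℕ × ℕ =>
    if m.2.2.2 = 0 then 0 else am (m.1, m.2.1, m.2.2.1, m.2.2.2 - 1)).comp coL

theorem sh0_am (p q r s : ℕ) :
    sh0 (am (p, q, r, s)) = if r = 0 then 0 else am (p, q, r - 1, s) := by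
  simp [sh0, coL_am]

theorem sh1_am (p q r s : ℕ) :
    sh1 (am (p, q, r, s)) = if s = 0 then 0 else am (p, q, r, s - 1) := by
  simp [sh1, coL_am]

theorem sh0_mem {f : Op} (hf : f ∈ F w k) : sh0 f ∈ F (w + 1) (k - 1) := by
  rw [F_eq_AM] at hf ⊢
  refine AM_of_mem hf ((AM (w + 1) (k - 1)).comap sh0) fun ⟨p, q, r, s⟩ hm => ?_
  rw [Submodule.mem_comap, sh0_am]
  split_ifs with hr
  · exact zero_mem _
  · simp only [Idx, Set.mem_ofPred_eq] at hm
    exact am_mem ⟨by simp only; omega, by simp only; omega⟩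

theorem sh1_mem {f : Op} (hf : f ∈ F w k) : sh1 f ∈ F (w + 1) (k - 1) := by
  rw [F_eq_AM] at hf ⊢
  refine AM_of_mem hf ((AM (w + 1) (k - 1)).comap sh1) fun ⟨p, q, r, s⟩ hm => ?_
  rw [Submodule.mem_comap, sh1_am]
  split_ifs with hr
  · exact zero_mem _
  · simp only [Idx, Set.mem_ofPred_eq] at hm
    exact am_mem ⟨by simp only; omega, by simp only; omega⟩

theorem co_D₀_mul {f : Op} (hf : f ∈ F w k) (p q r s : ℕ) :
    co (p, q, r, s) (D₀ * f) = if r = 0 then 0 else co (p, q, r - 1, s) f := by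
  refine (F_induct hf ((co (p, q, r, s)).comp (LinearMap.mulLeft ℚ D₀))
    (if r = 0 then 0 else co (p, q, r - 1, s)) fun ⟨a, b, c, d⟩ _ => ?_).trans
      (by split_ifs <;> rfl)
  rw [LinearMap.comp_apply, LinearMap.mulLeft_apply, D₀_mul_am, co_am]
  by_cases hr : r = 0
  · rw [if_pos hr, if_neg (by simp only [Prod.mk.injEq]; omega), LinearMap.zero_apply]
  · rw [if_neg hr, co_am]
    exact if_congr (by simp only [Prod.mk.injEq]; omega) rfl rfl

theorem co_D₁_mul {f : Op} (hf : f ∈ F w k) (p q r s : ℕ) :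
    co (p, q, r, s) (D₁ * f) = if s = 0 then 0 else co (p, q, r, s - 1) f := by
  refine (F_induct hf ((co (p, q, r, s)).comp (LinearMap.mulLeft ℚ D₁))
    (if s = 0 then 0 else co (p, q, r, s - 1)) fun ⟨a, b, c, d⟩ _ => ?_).trans
      (by split_ifs <;> rfl)
  rw [LinearMap.comp_apply, LinearMap.mulLeft_apply, D₁_mul_am, co_am]
  by_cases hr : s = 0
  · rw [if_pos hr, if_neg (by simp only [Prod.mk.injEq]; omega), LinearMap.zero_apply]
  · rw [if_neg hr, co_am]
    exact if_congr (by simp only [Prod.mk.injEq]; omega) rfl rfl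

theorem co_D₀_sh0 {f : Op} (hf : f ∈ F w k) (p q r s : ℕ) :
    co (p, q, r, s) (D₀ * sh0 f) = if r = 0 then 0 else co (p, q, r, s) f := by
  rw [co_D₀_mul (sh0_mem hf)]
  split_ifs with hr
  · rfl
  · refine F_induct hf ((co (p, q, r - 1, s)).comp sh0) (co (p, q, r, s)) fun ⟨a, b, c, d⟩ _ => ?_
    rw [LinearMap.comp_apply, sh0_am, co_am]
    split_ifs <;> simp_all [co_am] <;> omega

theorem co_D₁_sh1 {f : Op} (hf : f ∈ F w k) (p q r s : ℕ) :
    co (p, q, r, s) (D₁ * sh1 f) = if s = 0 then 0 else co (p, q, r, s) f := by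
  rw [co_D₁_mul (sh1_mem hf)]
  split_ifs with hr
  · rfl
  · refine F_induct hf ((co (p, q, r, s - 1)).comp sh1) (co (p, q, r, s)) fun ⟨a, b, c, d⟩ _ => ?_
    rw [LinearMap.comp_apply, sh1_am, co_am]
    split_ifs <;> simp_all [co_am] <;> omega

theorem D₀_mul_cancel {f : Op} (hf : f ∈ F w k) (h : D₀ * f = 0) : f = 0 :=
  eq_zero_of_co hf fun ⟨p, q, r, s⟩ => by
    have e := co_D₀_mul hf p q (r + 1) s
    rw [h, map_zero, if_neg r.succ_ne_zero, Nat.add_sub_cancel] at e
    exact e.symm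

theorem D_mul_mem {f : Op} (hf : f ∈ F w k) :
    D₀ * f ∈ F (w - 1) (k + 1) ∧ D₁ * f ∈ F (w - 1) (k + 1) := by
  rw [F_eq_AM] at hf ⊢
  exact ⟨D₀_mul_AM hf, D₁_mul_AM hf⟩

theorem deRham_mid {a b : Op} (ha : a ∈ F (w - 1) (k + 1)) (hb : b ∈ F (w - 1) (k + 1))
    (h : D₀ * b = D₁ * a) : ∃ φ ∈ F w k, D₀ * φ = a ∧ D₁ * φ = b := by
  have hφ : sh0 a ∈ F w k := by simpa using sh0_mem ha
  have e : D₀ * sh0 a = a := by
    refine sub_eq_zero.1 (eq_zero_of_co (sub_mem (D_mul_mem hφ).1 ha) fun ⟨p, q, r, s⟩ => ?_)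
    rw [map_sub, co_D₀_sh0 ha]
    split_ifs with hr
    · subst hr
      have e1 := co_D₁_mul ha p q 0 (s + 1)
      rw [← h, co_D₀_mul hb, if_pos rfl, if_neg s.succ_ne_zero, Nat.add_sub_cancel] at e1
      rw [← e1, sub_zero]
    · exact sub_self _
  refine ⟨_, hφ, e, ?_⟩
  refine (sub_eq_zero.1 (D₀_mul_cancel (sub_mem hb (D_mul_mem hφ).2) ?_)).symm
  rw [mul_sub, h]
  conv_lhs => arg 1; rw [← e]
  rw [← mul_assoc, ← mul_assoc, D₁_D₀', sub_self]
where
  D₁_D₀' : D₁ * D₀ = D₀ * D₁ := by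
    refine Finsupp.lhom_ext fun e c => ?_
    simp only [Module.End.mul_apply, D₀_single, D₁_single]
    congr 1
    ring

/-- The coefficient at `x⁻¹ y⁻¹`. -/
def res : T →ₗ[ℚ] ℚ := Finsupp.lapply (-1, -1)

theorem res_D₀ (t : T) : res (D₀ t) = 0 := by
  induction t using Finsupp.induction_linear with
  | zero => simp
  | add f g hf hg => rw [map_add, map_add, hf, hg, add_zero]
  | single e c =>
    rw [D₀_single, res, Finsupp.lapply_apply, Finsupp.single_apply]
    split_ifs with h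
    · simp only [Prod.mk.injEq] at h
      simp [show e.1 = 0 by omega]
    · rfl

theorem res_D₁ (t : T) : res (D₁ t) = 0 := by
  induction t using Finsupp.induction_linear with
  | zero => simp
  | add f g hf hg => rw [map_add, map_add, hf, hg, add_zero]
  | single e c =>
    rw [D₁_single, res, Finsupp.lapply_apply, Finsupp.single_apply]
    split_ifs with h
    · simp only [Prod.mk.injEq] at h
      simp [show e.2 = 0 by omega]
    · rfl

theorem res_single {f : Op} (hf : f ∈ F w k) (p q : ℕ) :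
    res (f (single (-(p : ℤ) - 1, -(q : ℤ) - 1) 1)) = co (p, q, 0, 0) f := by
  refine F_induct hf (res.comp (LinearMap.applyₗ (single (-(p : ℤ) - 1, -(q : ℤ) - 1) (1 : ℚ))))
    (co (p, q, 0, 0)) fun ⟨a, b, c, d⟩ _ => ?_
  rw [LinearMap.comp_apply, LinearMap.applyₗ_apply_apply, am_single, co_am, res,
    Finsupp.lapply_apply, Finsupp.single_apply]
  by_cases hm : (a, b, c, d) = (p, q, 0, 0)
  · simp only [Prod.mk.injEq] at hm
    obtain ⟨rfl, rfl, rfl, rfl⟩ := hm
    simp [ff_zero, show -(a : ℤ) - 1 + a = -1 by omega, show -(b : ℤ) - 1 + b = -1 by omega]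
  · rw [if_neg hm]
    split_ifs with he
    · simp only [Prod.mk.injEq] at he hm
      by_cases hc : c = 0
      · subst hc
        obtain ⟨d, rfl⟩ : ∃ d', d = d' + 1 := ⟨d - 1, by omega⟩
        rw [show -(q : ℤ) - 1 + b = (d : ℤ) by omega,
          ff_eq_zero (n := (d : ℤ)) (Int.natCast_nonneg _) (by omega)]
        simp
      · obtain ⟨c, rfl⟩ : ∃ c', c = c' + 1 := ⟨c - 1, by omega⟩
        rw [show -(p : ℤ) - 1 + a = (c : ℤ) by omega,
          ff_eq_zero (n := (c : ℤ)) (Int.natCast_nonneg _) (by omega)]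
        simp
    · rfl

theorem deRham_top {f : Op} (hf : f ∈ F (w - 2) (k + 2))
    (h : ∀ p q : ℕ, (p : ℤ) + q = w - 2 → co (p, q, 0, 0) f = 0) :
    ∃ a ∈ F (w - 1) (k + 1), ∃ b ∈ F (w - 1) (k + 1), D₀ * a + D₁ * b = f := by
  have ha : sh0 f ∈ F (w - 1) (k + 1) := by
    have e := sh0_mem hf
    rwa [show w - 2 + 1 = w - 1 by ring, show k + 2 - 1 = k + 1 by ring] at e
  have e' : ∀ {u : Op}, u ∈ F (w - 1) (k + 1) →
      D₀ * u ∈ F (w - 2) (k + 2) ∧ D₁ * u ∈ F (w - 2) (k + 2) := fun {u} hu => by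
    have e := D_mul_mem hu
    rwa [show w - 1 - 1 = w - 2 by ring, show k + 1 + 1 = k + 2 by ring] at e
  have hr : f - D₀ * sh0 f ∈ F (w - 2) (k + 2) := sub_mem hf (e' ha).1
  have hb : sh1 (f - D₀ * sh0 f) ∈ F (w - 1) (k + 1) := by
    have e := sh1_mem hr
    rwa [show w - 2 + 1 = w - 1 by ring, show k + 2 - 1 = k + 1 by ring] at e
  refine ⟨_, ha, _, hb, (sub_eq_zero.1 (eq_zero_of_co (sub_mem hf
    (add_mem (e' ha).1 (e' hb).2)) fun ⟨p, q, r, s⟩ => ?_)).symm⟩
  rw [map_sub, map_add, co_D₁_sh1 hr, map_sub, co_D₀_sh0 hf]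
  by_cases hs : s = 0 <;> by_cases hr : r = 0 <;> simp [hs, hr]
  by_cases hpq : (p : ℤ) + q = w - 2
  · exact h p q hpq
  · exact co_eq_zero hf fun hm => hpq (by simpa using hm.1)

end Vale.Agent.P195.BRes
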