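import Mathlib

/-!
# P195, the `B`-resolution: the Kronecker column

In degree `t ≤ M` the sequence `R_(t-1)^(M+1) → R_t^M → H → 0` is exact and its first map is
injective. A coefficient table `F p i` is the coefficient of `x^p y^(t-p)` at the generator `i`;
the first map is `g ↦ x g_(i-1) - y g_i`, the second sums along the diagonals `i = α + p`.
-/

namespace Vale.Agent.P195.BRes

open Finset

variable {K : Type*} [AddCommGroup K]

/-- The first map of the column, on coefficients. -/
def colMap (g : ℕ → ℕ → K) (p i : ℕ) : K := (if p = 0 then 0 else g (p - 1) (i - 1)) - g p i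

/-- The sums along the diagonals vanish on the image. -/
theorem sum_colMap (g : ℕ → ℕ → K) {t α : ℕ} (h : ∀ i, g t i = 0) :
    ∑ p ∈ range (t + 1), colMap g p (α + p) = 0 := by
  have e : ∀ n, ∑ p ∈ range (n + 1), colMap g p (α + p) = -g n (α + n) := by
    intro n
    induction n with
    | zero => simp [colMap]
    | succ n ih =>
      rw [sum_range_succ, ih, colMap, if_neg (by omega)]
      simp only [show n + 1 - 1 = n by omega, show α + (n + 1) - 1 = α + n by omega]
      abel
  rw [e, h, neg_zero]

/-- The first map is injective. -/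
theorem colMap_injective {M t : ℕ} (ht : t ≤ M) (g : ℕ → ℕ → K)
    (hg : ∀ p i, t ≤ p ∨ M < i → g p i = 0)
    (h : ∀ p i, p ≤ t → 1 ≤ i → i ≤ M → colMap g p i = 0) : g = 0 := by
  have up : ∀ n p i, t - p = n → i ≤ p → g p i = 0 := by
    intro n
    induction n with
    | zero => exact fun p i hp _ => hg p i (Or.inl (by omega))
    | succ n ih =>
      intro p i hp hi
      have e := h (p + 1) (i + 1) (by omega) (by omega) (by omega)
      rw [colMap, if_neg (by omega), ih (p + 1) (i + 1) (by omega) (by omega)] at e
      simpa using e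
  have down : ∀ p i, p < i → p ≤ t → i ≤ M → g p i = 0 := by
    intro p
    induction p with
    | zero =>
      intro i hi hp hM
      have e := h 0 i hp hi hM
      rwa [colMap, if_pos rfl, zero_sub, neg_eq_zero] at e
    | succ p ih =>
      intro i hi hp hM
      have e := h (p + 1) i hp (by omega) hM
      rwa [colMap, if_neg (by omega), show p + 1 - 1 = p by omega,
        ih (i - 1) (by omega) (by omega) (by omega), zero_sub, neg_eq_zero] at e
  funext p i
  by_cases hp : t ≤ p ∨ M < i
  · exact hg p i hp
  · by_cases hi : i ≤ p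
    · exact up _ p i rfl hi
    · exact down p i (by omega) (by omega) (by omega)

/-- A table killed by the diagonal sums is in the image. -/
theorem colMap_exact {M t : ℕ} (ht : t ≤ M) (F : ℕ → ℕ → K)
    (haug : ∀ α, 1 ≤ α → α + t ≤ M → ∑ p ∈ range (t + 1), F p (α + p) = 0) :
    ∃ g : ℕ → ℕ → K, (∀ p i, t ≤ p ∨ M < i → g p i = 0) ∧
      ∀ p i, p ≤ t → 1 ≤ i → i ≤ M → colMap g p i = F p i := by
  let g : ℕ → ℕ → K := fun p i =>
    if t ≤ p ∨ M < i then 0
    else if i ≤ p then ∑ l ∈ range (t - p), F (p + 1 + l) (i + 1 + l)
    else -∑ l ∈ range (p + 1), F l (i - p + l)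
  refine ⟨g, fun p i h => if_pos h, fun p i hp hi hM => ?_⟩
  unfold colMap
  rcases p with _ | p
  · rcases Nat.eq_zero_or_pos t with rfl | ht0
    · have e := haug i hi (by omega)
      simp [g] at e ⊢
      exact e.symm
    · simp only [g, ↓reduceIte, if_neg (show ¬(t ≤ 0 ∨ M < i) by omega),
        if_neg (show ¬i ≤ 0 by omega)]
      simp
  · rw [if_neg (Nat.succ_ne_zero p), Nat.add_sub_cancel]
    simp only [g, if_neg (show ¬(t ≤ p ∨ M < i - 1) by omega)]
    by_cases hip : i - 1 ≤ p
    · rw [if_pos hip]
      by_cases htp : t ≤ p + 1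
      · rw [if_pos (Or.inl htp), show t - p = 1 by omega, sum_range_one, sub_zero]
        congr 1
        omega
      · rw [if_neg (by omega), if_pos (show i ≤ p + 1 by omega), show t - p = t - (p + 1) + 1 by omega,
          sum_range_succ']
        rw [show (∑ k ∈ range (t - (p + 1)), F (p + 1 + (k + 1)) (i - 1 + 1 + (k + 1))) =
          ∑ l ∈ range (t - (p + 1)), F (p + 1 + 1 + l) (i + 1 + l) from
          sum_congr rfl fun l _ => by congr 1 <;> omega]
        rw [add_sub_cancel_left]
        congr 1
        omega
    · rw [if_neg hip]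
      by_cases htp : t ≤ p + 1
      · rw [if_pos (Or.inl htp), sub_zero]
        have e := haug (i - (p + 1)) (by omega) (by omega)
        rw [show t + 1 = p + 1 + 1 by omega, sum_range_succ] at e
        rw [show i - (p + 1) + (p + 1) = i by omega] at e
        rw [show i - 1 - p = i - (p + 1) by omega]
        exact (eq_neg_of_add_eq_zero_right e).symm
      · rw [if_neg (by omega), if_neg (show ¬i ≤ p + 1 by omega), sum_range_succ _ (p + 1),
          show i - 1 - p = i - (p + 1) by omega, show i - (p + 1) + (p + 1) = i by omega]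
        abel

end Vale.Agent.P195.BRes
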