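import Vale.Agent.P195.OpsFacts

/-!
# P195, the `B`-resolution: anti-normal coordinates

`am (p,q,r,s) = ∂x^r ∂y^s x^p y^q`. These span `F w k` and are independent, so right multiplication
by `x` and `y` shifts the coordinates `co` and keeps `(r,s)`.
-/

noncomputable section

namespace Vale.Agent.P195.BRes

open Finsupp (single)

/-- `∂x^r ∂y^s x^p y^q`. -/
def am (m : ℕ × ℕ × ℕ × ℕ) : Op := D₀ ^ m.2.2.1 * D₁ ^ m.2.2.2 * X₀ ^ m.1 * X₁ ^ m.2.1

theorem am_single (p q r s : ℕ) (e : ℤ × ℤ) (c : ℚ) :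
    am (p, q, r, s) (single e c) =
      single (e.1 + p - r, e.2 + q - s) (ff (e.1 + p) r * ff (e.2 + q) s * c) := by
  simp only [am, Module.End.mul_apply, D₁_pow_single, D₀_pow_single, X₁_pow_single,
    X₀_pow_single, mul_assoc]

theorem ff_neg_one_ne_zero (r : ℕ) : ff (-1) r ≠ 0 := by
  refine Finset.prod_ne_zero_iff.2 fun i _ => ?_
  have : (0 : ℚ) ≤ i := Nat.cast_nonneg i
  push_cast
  linarith

theorem am_linearIndependent : LinearIndependent ℚ am := by
  rw [linearIndependent_iff]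
  intro l hl
  by_contra hne
  obtain ⟨⟨p, q, r, s⟩, hm, hmin⟩ := l.support.exists_min_image (fun m => m.2.2.1 + m.2.2.2)
    (Finsupp.support_nonempty_iff.2 hne)
  have h := DFunLike.congr_fun (LinearMap.congr_fun hl (single (-(p : ℤ) - 1, -(q : ℤ) - 1) 1))
    (-(r : ℤ) - 1, -(s : ℤ) - 1)
  rw [Finsupp.linearCombination_apply, Finsupp.sum, LinearMap.sum_apply,
    Finsupp.finsetSum_apply, Finset.sum_eq_single (p, q, r, s)] at h
  · rw [LinearMap.smul_apply, Finsupp.smul_apply, am_single,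
      show -(p : ℤ) - 1 + p - r = -(r : ℤ) - 1 by omega,
      show -(q : ℤ) - 1 + q - s = -(s : ℤ) - 1 by omega,
      show -(p : ℤ) - 1 + p = -1 by omega, show -(q : ℤ) - 1 + q = -1 by omega] at h
    simp [ff_neg_one_ne_zero] at h
    exact Finsupp.mem_support_iff.1 hm h
  · rintro ⟨p', q', r', s'⟩ hm' hne'
    have hle : r + s ≤ r' + s' := hmin _ hm'
    rw [LinearMap.smul_apply, Finsupp.smul_apply, am_single, Finsupp.single_apply]
    split_ifs with he
    · simp only [Prod.mk.injEq] at he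
      by_cases hr : r < r'
      · rw [show -(p : ℤ) - 1 + p' = ((r' - r - 1 : ℕ) : ℤ) by omega,
          ff_eq_zero (Int.natCast_nonneg _) (by omega)]
        simp
      · by_cases hs : s < s'
        · rw [show -(q : ℤ) - 1 + q' = ((s' - s - 1 : ℕ) : ℤ) by omega,
            ff_eq_zero (n := ((s' - s - 1 : ℕ) : ℤ)) (Int.natCast_nonneg _) (by omega)]
          simp
        · exact absurd (by simp only [Prod.mk.injEq]; omega) hne'
    · exact smul_zero _
  · exact fun h' => absurd hm h'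

/-- Coordinates on the span of the `am`. -/
def coL : Op →ₗ[ℚ] ((ℕ × ℕ × ℕ × ℕ) →₀ ℚ) :=
  (LinearMap.exists_leftInverse_of_injective _
    (linearIndependent_iff_injective_finsuppLinearCombination.1 am_linearIndependent
      |> LinearMap.ker_eq_bot.2)).choose

theorem coL_am (m : ℕ × ℕ × ℕ × ℕ) : coL (am m) = single m 1 := by
  have h := (LinearMap.exists_leftInverse_of_injective _
    (linearIndependent_iff_injective_finsuppLinearCombination.1 am_linearIndependent
      |> LinearMap.ker_eq_bot.2)).choose_spec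
  have h' := LinearMap.congr_fun h (single m 1)
  simpa [coL] using h'

/-- The coordinate of `f` at `∂x^r ∂y^s x^p y^q`. -/
def co (m : ℕ × ℕ × ℕ × ℕ) : Op →ₗ[ℚ] ℚ := (Finsupp.lapply m).comp coL

theorem co_am (m n : ℕ × ℕ × ℕ × ℕ) : co m (am n) = if n = m then 1 else 0 := by
  simp [co, coL_am, Finsupp.single_apply]

/-! ### Spanning -/

theorem X₀_mul_am (p q r s : ℕ) :
    X₀ * am (p, q, r, s) = am (p + 1, q, r, s) - (r : ℚ) • am (p, q, r - 1, s) := by
  refine Finsupp.lhom_ext fun e c => ?_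
  cases r with
  | zero =>
    simp only [Module.End.mul_apply, am_single, X₀_single, ff_zero, Nat.cast_zero, zero_smul,
      sub_zero]
    congr 2
    push_cast; ring
  | succ r =>
    simp only [Module.End.mul_apply, LinearMap.sub_apply, LinearMap.smul_apply, am_single,
      X₀_single, Finsupp.smul_single, smul_eq_mul, Nat.add_sub_cancel]
    rw [show e.1 + (p : ℤ) - ((r + 1 : ℕ) : ℤ) + 1 = e.1 + p - r by omega,
      show e.1 + ((p + 1 : ℕ) : ℤ) - ((r + 1 : ℕ) : ℤ) = e.1 + p - r by omega,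
      ← Finsupp.single_sub]
    congr 1
    have key : ∀ n : ℤ, ff (n + 1) (r + 1) = ff n (r + 1) + (r + 1) * ff n r := by
      intro n
      clear c
      induction r with
      | zero => simp [ff_succ, ff_zero]
      | succ r ih => rw [ff_succ, ih, ff_succ _ (r + 1), ff_succ _ r]; push_cast; ring
    rw [show e.1 + ((p + 1 : ℕ) : ℤ) = e.1 + p + 1 by omega, key]
    push_cast; ring

theorem D₀_mul_am (p q r s : ℕ) : D₀ * am (p, q, r, s) = am (p, q, r + 1, s) := by
  simp [am, pow_succ', mul_assoc]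

theorem D₁_mul_am (p q r s : ℕ) : D₁ * am (p, q, r, s) = am (p, q, r, s + 1) := by
  refine Finsupp.lhom_ext fun e c => ?_
  simp only [Module.End.mul_apply, am_single, D₁_single, ff_succ]
  congr 1
  · simp only [Prod.mk.injEq, true_and]; push_cast; ring
  · push_cast; ring

theorem X₁_mul_am (p q r s : ℕ) :
    X₁ * am (p, q, r, s) = am (p, q + 1, r, s) - (s : ℚ) • am (p, q, r, s - 1) := by
  refine Finsupp.lhom_ext fun e c => ?_
  cases s with
  | zero =>
    simp only [Module.End.mul_apply, am_single, X₁_single, ff_zero, Nat.cast_zero, zero_smul,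
      sub_zero]
    congr 2
    push_cast; ring
  | succ s =>
    simp only [Module.End.mul_apply, LinearMap.sub_apply, LinearMap.smul_apply, am_single,
      X₁_single, Finsupp.smul_single, smul_eq_mul, Nat.add_sub_cancel]
    rw [show e.2 + (q : ℤ) - ((s + 1 : ℕ) : ℤ) + 1 = e.2 + q - s by omega,
      show e.2 + ((q + 1 : ℕ) : ℤ) - ((s + 1 : ℕ) : ℤ) = e.2 + q - s by omega,
      ← Finsupp.single_sub]
    congr 1
    have key : ∀ n : ℤ, ff (n + 1) (s + 1) = ff n (s + 1) + (s + 1) * ff n s := by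
      intro n
      clear c
      induction s with
      | zero => simp [ff_succ, ff_zero]
      | succ s ih => rw [ff_succ, ih, ff_succ _ (s + 1), ff_succ _ s]; push_cast; ring
    rw [show e.2 + ((q + 1 : ℕ) : ℤ) = e.2 + q + 1 by omega, key]
    push_cast; ring

/-- The span of the `am` of weight `w` and order at most `k`. -/
def AM (w k : ℤ) : Submodule ℚ Op := Submodule.span ℚ (am '' Idx w k)

variable {w k : ℤ} {f : Op}

theorem AM_of_mem (hf : f ∈ AM w k) (S : Submodule ℚ Op) (h : ∀ m ∈ Idx w k, am m ∈ S) : f ∈ S :=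
  Submodule.span_le.2 (Set.forall_mem_image.2 h) hf

theorem am_mem {m : ℕ × ℕ × ℕ × ℕ} (h : m ∈ Idx w k) : am m ∈ AM w k :=
  Submodule.subset_span ⟨m, h, rfl⟩

theorem X₀_mul_AM (hf : f ∈ AM w k) : X₀ * f ∈ AM (w + 1) k :=
  AM_of_mem hf ((AM (w + 1) k).comap (LinearMap.mulLeft ℚ X₀)) fun ⟨p, q, r, s⟩ hm => by
    simp only [Idx, Set.mem_ofPred_eq] at hm
    rw [Submodule.mem_comap, LinearMap.mulLeft_apply, X₀_mul_am]
    refine sub_mem (am_mem ⟨by push_cast; omega, by push_cast; omega⟩) ?_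
    cases r with
    | zero => simp
    | succ r =>
      exact Submodule.smul_mem _ _
        (am_mem ⟨by push_cast at hm ⊢; omega, by push_cast at hm ⊢; omega⟩)

theorem X₁_mul_AM (hf : f ∈ AM w k) : X₁ * f ∈ AM (w + 1) k :=
  AM_of_mem hf ((AM (w + 1) k).comap (LinearMap.mulLeft ℚ X₁)) fun ⟨p, q, r, s⟩ hm => by
    simp only [Idx, Set.mem_ofPred_eq] at hm
    rw [Submodule.mem_comap, LinearMap.mulLeft_apply, X₁_mul_am]
    refine sub_mem (am_mem ⟨by push_cast; omega, by push_cast; omega⟩) ?_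
    cases s with
    | zero => simp
    | succ s =>
      exact Submodule.smul_mem _ _
        (am_mem ⟨by push_cast at hm ⊢; omega, by push_cast at hm ⊢; omega⟩)

theorem D₀_mul_AM (hf : f ∈ AM w k) : D₀ * f ∈ AM (w - 1) (k + 1) :=
  AM_of_mem hf ((AM (w - 1) (k + 1)).comap (LinearMap.mulLeft ℚ D₀)) fun ⟨p, q, r, s⟩ hm => by
    simp only [Idx, Set.mem_ofPred_eq] at hm
    rw [Submodule.mem_comap, LinearMap.mulLeft_apply, D₀_mul_am]
    exact am_mem ⟨by push_cast; omega, by push_cast; omega⟩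

theorem D₁_mul_AM (hf : f ∈ AM w k) : D₁ * f ∈ AM (w - 1) (k + 1) :=
  AM_of_mem hf ((AM (w - 1) (k + 1)).comap (LinearMap.mulLeft ℚ D₁)) fun ⟨p, q, r, s⟩ hm => by
    simp only [Idx, Set.mem_ofPred_eq] at hm
    rw [Submodule.mem_comap, LinearMap.mulLeft_apply, D₁_mul_am]
    exact am_mem ⟨by push_cast; omega, by push_cast; omega⟩

theorem AM_le {k' : ℤ} (h : k ≤ k') : AM w k ≤ AM w k' :=
  Submodule.span_mono (Set.image_mono fun _ hm => ⟨hm.1, hm.2.trans h⟩)

theorem mono_mem_AM (p q r s : ℕ) :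
    mono (p, q, r, s) ∈ AM ((p : ℤ) + q - r - s) ((r : ℤ) + s) := by
  induction p with
  | zero =>
    induction q with
    | zero =>
      have e : mono (0, 0, r, s) = am (0, 0, r, s) := by simp [mono, am]
      rw [e]
      exact am_mem ⟨by push_cast; omega, by simp⟩
    | succ q ih =>
      rw [← X₁_mul_mono, show ((0 : ℕ) : ℤ) + ((q + 1 : ℕ) : ℤ) - r - s =
        ((0 : ℕ) : ℤ) + q - r - s + 1 by push_cast; ring]
      exact X₁_mul_AM ih
  | succ p ih =>
    rw [← X₀_mul_mono, show ((p + 1 : ℕ) : ℤ) + q - r - s = (p : ℤ) + q - r - s + 1 by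
      push_cast; ring]
    exact X₀_mul_AM ih

theorem F_eq_AM (w k : ℤ) : F w k = AM w k := by
  refine le_antisymm (Submodule.span_le.2 (Set.forall_mem_image.2 ?_))
    (Submodule.span_le.2 (Set.forall_mem_image.2 ?_))
  · rintro ⟨p, q, r, s⟩ ⟨h1, h2⟩
    simp only at h1 h2
    rw [show w = (p : ℤ) + q - r - s by omega]
    exact AM_le h2 (mono_mem_AM p q r s)
  · rintro ⟨p, q, r, s⟩ ⟨h1, h2⟩
    simp only at h1 h2
    have e : X₀ ^ p * X₁ ^ q ∈ F ((p : ℤ) + q) 0 := by
      rw [show X₀ ^ p * X₁ ^ q = mono (p, q, 0, 0) by simp [mono]]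
      exact mono_mem ⟨by simp, by simp⟩
    have h := D₀_pow_mul_mem r (D₁_pow_mul_mem s e)
    rw [show am (p, q, r, s) = D₀ ^ r * (D₁ ^ s * (X₀ ^ p * X₁ ^ q)) by simp [am, mul_assoc],
      show w = (p : ℤ) + q - s - r by omega]
    exact F_le (by omega) h

theorem F_induct {M : Type*} [AddCommGroup M] [Module ℚ M] (hf : f ∈ F w k) (φ ψ : Op →ₗ[ℚ] M)
    (h : ∀ m ∈ Idx w k, φ (am m) = ψ (am m)) : φ f = ψ f := by
  rw [F_eq_AM] at hf
  exact LinearMap.eqOn_span (Set.forall_mem_image.2 h) hf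

/-- Coordinates outside the weight and order vanish. -/
theorem co_eq_zero (hf : f ∈ F w k) {m : ℕ × ℕ × ℕ × ℕ} (hm : m ∉ Idx w k) : co m f = 0 :=
  (F_induct hf (co m) 0 fun n hn => by
    rw [co_am, if_neg (fun e : n = m => hm (e ▸ hn)), LinearMap.zero_apply])

/-- An operator with no coordinates is zero. -/
theorem eq_zero_of_co (hf : f ∈ F w k) (h : ∀ m, co m f = 0) : f = 0 := by
  have e : Finsupp.linearCombination ℚ am (coL f) = f :=
    F_induct hf ((Finsupp.linearCombination ℚ am).comp coL) LinearMap.id fun m _ => by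
      rw [LinearMap.comp_apply, coL_am]; simp
  rw [← e, show coL f = 0 from Finsupp.ext h, map_zero]

/-! ### Right multiplication -/

theorem am_mul_X₀ (p q r s : ℕ) : am (p, q, r, s) * X₀ = am (p + 1, q, r, s) := by
  refine Finsupp.lhom_ext fun e c => ?_
  simp only [Module.End.mul_apply, am_single, X₀_single]
  push_cast
  rw [show e.1 + 1 + (p : ℤ) = e.1 + (p + 1) by ring]

theorem am_mul_X₁ (p q r s : ℕ) : am (p, q, r, s) * X₁ = am (p, q + 1, r, s) := by
  refine Finsupp.lhom_ext fun e c => ?_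
  simp only [Module.End.mul_apply, am_single, X₁_single]
  push_cast
  rw [show e.2 + 1 + (q : ℤ) = e.2 + (q + 1) by ring]

theorem am_mul_D₀X₀ (p q r s : ℕ) :
    am (p, q, r, s) * (D₀ * X₀) = am (p + 1, q, r + 1, s) - (p : ℚ) • am (p, q, r, s) := by
  refine Finsupp.lhom_ext fun e c => ?_
  simp only [Module.End.mul_apply, LinearMap.sub_apply, LinearMap.smul_apply, am_single, D₀_single,
    X₀_single, ff_succ, Finsupp.smul_single, smul_eq_mul]
  push_cast
  rw [show e.1 + 1 - 1 + (p : ℤ) - r = e.1 + p - r by ring,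
    show e.1 + ((p : ℤ) + 1) - ((r : ℤ) + 1) = e.1 + p - r by ring, ← Finsupp.single_sub]
  congr 1
  have key : ∀ n : ℤ, ff (n + 1) r * ((n : ℚ) + 1 - r) = ff n r * ((n : ℚ) + 1) := by
    intro n
    clear c
    induction r with
    | zero => simp [ff_zero]
    | succ r ih =>
      rw [ff_succ, ff_succ]
      push_cast
      linear_combination ((n : ℚ) - r) * ih
  have h := key (e.1 + p)
  rw [show e.1 + 1 - 1 + (p : ℤ) = e.1 + p by ring,
    show e.1 + ((p : ℤ) + 1) = e.1 + p + 1 by ring]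
  push_cast at h ⊢
  linear_combination -(ff (e.2 + q) s * c) * h

theorem am_mul_D₁X₀ (p q r s : ℕ) :
    am (p, q, r, s) * (D₁ * X₀) = am (p + 1, q, r, s + 1) - (q : ℚ) • am (p + 1, q - 1, r, s) := by
  refine Finsupp.lhom_ext fun e c => ?_
  simp only [Module.End.mul_apply, LinearMap.sub_apply, LinearMap.smul_apply, am_single, D₁_single,
    X₀_single, ff_succ, Finsupp.smul_single, smul_eq_mul]
  cases q with
  | zero =>
    push_cast
    rw [show e.1 + 1 + (p : ℤ) - r = e.1 + (p + 1) - r by ring,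
      show e.2 - 1 + (0 : ℤ) - s = e.2 + 0 - (s + 1) by ring, zero_mul, Finsupp.single_zero,
      sub_zero]
    congr 1
    have key : ∀ n : ℤ, ff (n - 1) s * (n : ℚ) = ff n s * ((n : ℚ) - s) := by
      intro n
      clear c
      induction s with
      | zero => simp [ff_zero]
      | succ s ih =>
        rw [ff_succ, ff_succ]
        push_cast
        linear_combination ((n : ℚ) - 1 - s) * ih
    have h := key e.2
    rw [show e.1 + 1 + (p : ℤ) = e.1 + (p + 1) by ring, show e.2 - 1 + (0 : ℤ) = e.2 - 1 by ring,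
      show e.2 + (0 : ℤ) = e.2 by ring]
    linear_combination (ff (e.1 + (p + 1)) r * c) * h
  | succ q =>
    simp only [Nat.add_sub_cancel]
    push_cast
    rw [show e.1 + 1 + (p : ℤ) - r = e.1 + (p + 1) - r by ring,
      show e.2 - 1 + ((q : ℤ) + 1) - s = e.2 + q - s by ring,
      show e.2 + ((q : ℤ) + 1) - ((s : ℤ) + 1) = e.2 + q - s by ring, ← Finsupp.single_sub]
    congr 1
    have key : ∀ n : ℤ, ff (n + 1) s * ((n : ℚ) + 1 - s) = ff n s * ((n : ℚ) + 1) := by
      intro n
      clear c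
      induction s with
      | zero => simp [ff_zero]
      | succ s ih =>
        rw [ff_succ, ff_succ]
        push_cast
        linear_combination ((n : ℚ) - s) * ih
    have h := key (e.2 + q)
    rw [show e.1 + 1 + (p : ℤ) = e.1 + (p + 1) by ring,
      show e.2 - 1 + ((q : ℤ) + 1) = e.2 + q by ring,
      show e.2 + ((q : ℤ) + 1) = e.2 + q + 1 by ring]
    push_cast at h ⊢
    linear_combination -(ff (e.1 + (p + 1)) r * c) * h

theorem co_mul_X₀ (hf : f ∈ F w k) (p q r s : ℕ) :
    co (p, q, r, s) (f * X₀) = if p = 0 then 0 else co (p - 1, q, r, s) f := by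
  refine (F_induct hf ((co (p, q, r, s)).comp (LinearMap.mulRight ℚ X₀))
    (if p = 0 then 0 else co (p - 1, q, r, s)) fun ⟨a, b, c, d⟩ _ => ?_).trans (by split_ifs <;> rfl)
  rw [LinearMap.comp_apply, LinearMap.mulRight_apply, am_mul_X₀, co_am]
  by_cases hp : p = 0
  · rw [if_pos hp, if_neg (by simp only [Prod.mk.injEq]; omega), LinearMap.zero_apply]
  · rw [if_neg hp, co_am]
    exact if_congr (by simp only [Prod.mk.injEq]; omega) rfl rfl

theorem co_mul_X₁ (hf : f ∈ F w k) (p q r s : ℕ) :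
    co (p, q, r, s) (f * X₁) = if q = 0 then 0 else co (p, q - 1, r, s) f := by
  refine (F_induct hf ((co (p, q, r, s)).comp (LinearMap.mulRight ℚ X₁))
    (if q = 0 then 0 else co (p, q - 1, r, s)) fun ⟨a, b, c, d⟩ _ => ?_).trans (by split_ifs <;> rfl)
  rw [LinearMap.comp_apply, LinearMap.mulRight_apply, am_mul_X₁, co_am]
  by_cases hp : q = 0
  · rw [if_pos hp, if_neg (by simp only [Prod.mk.injEq]; omega), LinearMap.zero_apply]
  · rw [if_neg hp, co_am]
    exact if_congr (by simp only [Prod.mk.injEq]; omega) rfl rfl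

theorem co_mul_D₀X₀ (hf : f ∈ F w k) (p q r s : ℕ) :
    co (p, q, r, s) (f * (D₀ * X₀)) =
      (if p = 0 ∨ r = 0 then 0 else co (p - 1, q, r - 1, s) f) - (p : ℚ) * co (p, q, r, s) f := by
  refine (F_induct hf ((co (p, q, r, s)).comp (LinearMap.mulRight ℚ (D₀ * X₀)))
    ((if p = 0 ∨ r = 0 then 0 else co (p - 1, q, r - 1, s)) - (p : ℚ) • co (p, q, r, s))
    fun ⟨a, b, c, d⟩ _ => ?_).trans (by
      rw [LinearMap.sub_apply, LinearMap.smul_apply]; split_ifs <;> rfl)
  rw [LinearMap.comp_apply, LinearMap.mulRight_apply, am_mul_D₀X₀, map_sub, map_smul, co_am, co_am,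
    LinearMap.sub_apply, LinearMap.smul_apply, co_am]
  congr 1
  · by_cases hp : p = 0 ∨ r = 0
    · rw [if_pos hp, if_neg (by simp only [Prod.mk.injEq]; omega), LinearMap.zero_apply]
    · rw [if_neg hp, co_am]
      exact if_congr (by simp only [Prod.mk.injEq]; omega) rfl rfl
  · by_cases h : (a, b, c, d) = (p, q, r, s)
    · simp only [Prod.mk.injEq] at h; rw [h.1]
    · simp [h]

theorem co_mul_D₁X₀ (hf : f ∈ F w k) (p q r s : ℕ) :
    co (p, q, r, s) (f * (D₁ * X₀)) =
      (if p = 0 ∨ s = 0 then 0 else co (p - 1, q, r, s - 1) f)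
        - (if p = 0 then 0 else ((q : ℚ) + 1) * co (p - 1, q + 1, r, s) f) := by
  refine (F_induct hf ((co (p, q, r, s)).comp (LinearMap.mulRight ℚ (D₁ * X₀)))
    ((if p = 0 ∨ s = 0 then 0 else co (p - 1, q, r, s - 1)) -
      (if p = 0 then 0 else ((q : ℚ) + 1) • co (p - 1, q + 1, r, s)))
    fun ⟨a, b, c, d⟩ _ => ?_).trans (by
      rw [LinearMap.sub_apply]; split_ifs <;> rfl)
  rw [LinearMap.comp_apply, LinearMap.mulRight_apply, am_mul_D₁X₀, map_sub, map_smul, co_am, co_am,
    LinearMap.sub_apply]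
  congr 1
  · by_cases hp : p = 0 ∨ s = 0
    · rw [if_pos hp, if_neg (by simp only [Prod.mk.injEq]; omega), LinearMap.zero_apply]
    · rw [if_neg hp, co_am]
      exact if_congr (by simp only [Prod.mk.injEq]; omega) rfl rfl
  · by_cases hp : p = 0
    · rw [if_pos hp, if_neg (by simp only [Prod.mk.injEq]; omega), smul_zero, LinearMap.zero_apply]
    · rw [if_neg hp, LinearMap.smul_apply, co_am]
      rcases b with _ | b
      · rw [if_neg (show (a, 0, c, d) ≠ (p - 1, q + 1, r, s) by simp)]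
        simp
      · rw [Nat.add_sub_cancel]
        by_cases h : (a + 1, b, c, d) = (p, q, r, s)
        · rw [if_pos h, if_pos (by simp only [Prod.mk.injEq] at h ⊢; omega)]
          simp only [Prod.mk.injEq] at h
          rw [h.2.1]; push_cast; ring
        · rw [if_neg h, if_neg (fun h' => h (by simp only [Prod.mk.injEq] at h' ⊢; omega))]
          simp

end Vale.Agent.P195.BRes
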