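import Vale.Agent.P195.BRes.Maps
import Vale.Agent.P195.BRes.Column

/-!
# P195, the `B`-resolution: the cokernels of the columns

`pr M t r s` reads the coefficient of `∂x^r ∂y^s` of a table and sums it along the diagonals
`i = α + p`; `dx, dy` are the derivations of the inverse monomials `x^-α y^-(m+1-α)`, `1 ≤ α ≤ m`.
-/

noncomputable section

namespace Vale.Agent.P195.BRes

open Finset

/-- Functions on the inverse monomials of one weight. -/
abbrev Hf : Type := ℕ → ℚ

/-- Supported in `[1, m]`. -/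
def Supp (m : ℕ) (f : Hf) : Prop := ∀ α, α < 1 ∨ m < α → f α = 0

/-- The diagonal sums. -/
def pr (M t r s : ℕ) : Tb →ₗ[ℚ] Hf :=
  LinearMap.pi fun α =>
    if 1 ≤ α ∧ α + t ≤ M then ∑ p ∈ range (t + 1), (co (p, t - p, r, s)).comp (at_ (α + p)) else 0

theorem pr_apply (M t r s : ℕ) (g : Tb) (α : ℕ) :
    pr M t r s g α = if 1 ≤ α ∧ α + t ≤ M then
      ∑ p ∈ range (t + 1), co (p, t - p, r, s) (g (α + p)) else 0 := by
  unfold pr; rw [LinearMap.pi_apply]; split_ifs <;> simp

theorem pr_supp (M t r s : ℕ) (g : Tb) : Supp (M - t) (pr M t r s g) := fun α h => by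
  rw [pr_apply, if_neg (by omega)]

/-- `∂x`. -/
def dx (m : ℕ) : Hf →ₗ[ℚ] Hf :=
  LinearMap.pi fun α =>
    if 1 ≤ α ∧ α ≤ m then (1 - (α : ℚ)) • LinearMap.proj (R := ℚ) (φ := fun _ : ℕ => ℚ) (α - 1)
    else 0

theorem dx_apply (m : ℕ) (f : Hf) (α : ℕ) :
    dx m f α = if 1 ≤ α ∧ α ≤ m then (1 - (α : ℚ)) * f (α - 1) else 0 := by
  unfold dx; rw [LinearMap.pi_apply]; split_ifs <;> simp

/-- `∂y`. -/
def dy (m : ℕ) : Hf →ₗ[ℚ] Hf :=
  LinearMap.pi fun α =>
    if 1 ≤ α ∧ α ≤ m then ((α : ℚ) - m) • LinearMap.proj (R := ℚ) (φ := fun _ : ℕ => ℚ) α else 0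

theorem dy_apply (m : ℕ) (f : Hf) (α : ℕ) :
    dy m f α = if 1 ≤ α ∧ α ≤ m then ((α : ℚ) - m) * f α else 0 := by
  unfold dy; rw [LinearMap.pi_apply]; split_ifs <;> simp

theorem dx_supp (m : ℕ) (f : Hf) : Supp m (dx m f) := fun α h => by rw [dx_apply, if_neg (by omega)]

theorem dy_supp (m : ℕ) (f : Hf) : Supp m (dy m f) := fun α h => by rw [dy_apply, if_neg (by omega)]

theorem Supp.add {m : ℕ} {f g : Hf} (hf : Supp m f) (hg : Supp m g) : Supp m (f + g) :=
  fun α h => by simp [hf α h, hg α h]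

theorem dx_dy (m : ℕ) (f : Hf) : dx m (dy (m - 1) f) = dy m (dx (m - 1) f) := by
  funext α
  simp only [dx_apply, dy_apply]
  by_cases h : 1 ≤ α ∧ α ≤ m
  · obtain ⟨a, rfl⟩ : ∃ a, α = a + 1 := ⟨α - 1, by omega⟩
    obtain ⟨l, rfl⟩ : ∃ l, m = l + 1 := ⟨m - 1, by omega⟩
    simp only [Nat.add_sub_cancel]
    rcases a with _ | a
    · simp
    · rcases Nat.lt_or_ge (a + 1) l with hl | hl
      · simp [h, show a + 1 + 1 ≤ l by omega, show a + 1 ≤ l by omega]
        ring
      · obtain rfl : l = a + 1 := by omega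
        simp [h]
  · simp [h]

/-! ### The Euler parts of `h1` and `h2` -/

/-- `g ↦ g · (∂x x + i)`, shifted. -/
def E0 (M : ℕ) (g : Tb) : Tb := fun i =>
  if 1 ≤ i ∧ i ≤ M then g (i - 1) * (D₀ * X₀) + ((i : ℚ) - 1) • g (i - 1) else 0

/-- `g ↦ g · ∂y x + (M - i) g`, shifted. -/
def E1 (M : ℕ) (g : Tb) : Tb := fun i =>
  if 1 ≤ i ∧ i ≤ M then g (i - 1) * (D₁ * X₀) + ((M : ℚ) - i) • g i else 0

theorem h1_eq (N : ℕ) (x : Tb × Tb) : h1 N x = E0 N x.1 + E1 N x.2 := by
  funext i
  simp only [Pi.add_apply, h1_apply, E0, E1]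
  split_ifs <;> simp

theorem h2_eq {N : ℕ} (hN : 1 ≤ N) (g : Tb) : h2 N g = (-E1 (N - 1) g, E0 (N - 1) g) := by
  refine Prod.ext (funext fun i => ?_) (funext fun i => ?_)
  · simp only [h2_fst, Pi.neg_apply, E1, Nat.cast_sub hN, Nat.cast_one]
    simp only [show (i ≤ N - 1) = (i + 1 ≤ N) from propext (by omega)]
    split_ifs <;> simp
  · simp only [h2_snd, E0, show (i ≤ N - 1) = (i + 1 ≤ N) from propext (by omega)]

variable {M t r s : ℕ} {w k : ℤ} {g : Tb}

theorem pr_E0 (hM : 1 ≤ M) (hg : ∀ i, g i ∈ F w k) (ht : (t : ℤ) = w + r + s) (hw : 0 ≤ w) :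
    pr M t r s (E0 M g) =
      (if r = 0 then 0 else pr (M - 1) (t - 1) (r - 1) s g) - dx (M - t) (pr (M - 1) t r s g) := by
  funext α
  simp only [Pi.sub_apply, dx_apply, pr_apply]
  by_cases hα : 1 ≤ α ∧ α + t ≤ M
  · rw [if_pos hα, if_pos (show 1 ≤ α ∧ α ≤ M - t by omega)]
    have e : ∀ p ∈ range (t + 1), co (p, t - p, r, s) (E0 M g (α + p)) =
        (if p = 0 ∨ r = 0 then 0 else co (p - 1, t - p, r - 1, s) (g (α + p - 1))) +
          ((α : ℚ) - 1) * co (p, t - p, r, s) (g (α - 1 + p)) := by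
      intro p hp
      rw [mem_range] at hp
      rw [E0, if_pos (by omega), map_add, map_smul, co_mul_D₀X₀ (hg _), smul_eq_mul,
        show α + p - 1 = α - 1 + p by omega]
      push_cast
      ring
    rw [sum_congr rfl e, sum_add_distrib, ← mul_sum]
    rcases r with _ | r
    · simp only [or_true, ↓reduceIte, sum_const_zero, Pi.zero_apply]
      rcases Nat.lt_or_ge 1 α with h1 | h1
      · rw [if_pos (show 1 ≤ α - 1 ∧ α - 1 + t ≤ M - 1 by omega)]
        ring
      · obtain rfl : α = 1 := by omega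
        simp
    · obtain ⟨u, rfl⟩ : ∃ u, t = u + 1 := ⟨t - 1, by omega⟩
      simp only [Nat.add_one_ne_zero, or_false, if_false, pr_apply, Nat.add_sub_cancel,
        if_pos (show 1 ≤ α ∧ α + u ≤ M - 1 by omega)]
      rw [sum_range_succ' _ (u + 1)]
      simp only [↓reduceIte, add_zero, Nat.add_one_ne_zero, Nat.add_sub_cancel,
        Nat.add_sub_add_right, ← add_assoc]
      rcases Nat.lt_or_ge 1 α with h1 | h1
      · rw [if_pos (show 1 ≤ α - 1 ∧ α - 1 + u + 1 ≤ M - 1 by omega)]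
        ring
      · obtain rfl : α = 1 := by omega
        simp
  · rw [if_neg hα, if_neg (show ¬(1 ≤ α ∧ α ≤ M - t) by omega), sub_zero]
    split_ifs with hr
    · rfl
    · rw [pr_apply, if_neg (by omega)]

theorem pr_E1 (hM : 1 ≤ M) (hg : ∀ i, g i ∈ F w k) (ht : (t : ℤ) = w + r + s) (hw : 0 ≤ w) :
    pr M t r s (E1 M g) =
      (if s = 0 then 0 else pr (M - 1) (t - 1) r (s - 1) g) - dy (M - t) (pr (M - 1) t r s g) := by
  funext α
  simp only [Pi.sub_apply, dy_apply, pr_apply]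
  by_cases hα : 1 ≤ α ∧ α + t ≤ M
  · rw [if_pos hα, if_pos (show 1 ≤ α ∧ α ≤ M - t by omega)]
    have e : ∀ p ∈ range (t + 1), co (p, t - p, r, s) (E1 M g (α + p)) =
        (if p = 0 ∨ s = 0 then 0 else co (p - 1, t - p, r, s - 1) (g (α + p - 1))) -
          (if p = 0 then 0 else (((t - p : ℕ) : ℚ) + 1) *
            co (p - 1, t - p + 1, r, s) (g (α + p - 1))) +
          ((M : ℚ) - α - p) * co (p, t - p, r, s) (g (α + p)) := by
      intro p hp
      rw [mem_range] at hp
      rw [E1, if_pos (by omega), map_add, map_smul, co_mul_D₁X₀ (hg _), smul_eq_mul]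
      push_cast
      ring
    have e' : (∑ p ∈ range (t + 1), if p = 0 then 0 else (((t - p : ℕ) : ℚ) + 1) *
        co (p - 1, t - p + 1, r, s) (g (α + p - 1))) =
        ∑ p ∈ range (t + 1), ((t : ℚ) - p) * co (p, t - p, r, s) (g (α + p)) := by
      rw [sum_range_succ', sum_range_succ]
      simp only [↓reduceIte, add_zero, sub_self, zero_mul, Nat.add_one_ne_zero, if_false,
        Nat.add_sub_cancel]
      refine sum_congr rfl fun p hp => ?_
      rw [mem_range] at hp
      rw [show t - (p + 1) + 1 = t - p by omega, show α + (p + 1) - 1 = α + p by omega,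
        Nat.cast_sub (show p + 1 ≤ t by omega)]
      push_cast
      ring
    rw [sum_congr rfl e, sum_add_distrib, sum_sub_distrib, e', sub_add, ← sum_sub_distrib]
    have e'' : (∑ p ∈ range (t + 1), (((t : ℚ) - p) * co (p, t - p, r, s) (g (α + p)) -
        ((M : ℚ) - α - p) * co (p, t - p, r, s) (g (α + p)))) =
        ((α : ℚ) - (M - t : ℕ)) * if 1 ≤ α ∧ α + t ≤ M - 1 then
          ∑ p ∈ range (t + 1), co (p, t - p, r, s) (g (α + p)) else 0 := by
      rw [Nat.cast_sub (show t ≤ M by omega)]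
      split_ifs with h1
      · rw [mul_sum]
        exact sum_congr rfl fun p _ => by ring
      · have : α + t = M := by omega
        have : (α : ℚ) + t = M := by exact_mod_cast this
        rw [mul_zero]
        exact sum_eq_zero fun p _ => by linear_combination (co (p, t - p, r, s) (g (α + p))) * this
    rw [e'']
    congr 1
    rcases s with _ | s
    · simp
    · obtain ⟨u, rfl⟩ : ∃ u, t = u + 1 := ⟨t - 1, by omega⟩
      simp only [Nat.add_one_ne_zero, or_false, if_false, pr_apply, Nat.add_sub_cancel,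
        if_pos (show 1 ≤ α ∧ α + u ≤ M - 1 by omega)]
      rw [sum_range_succ']
      simp only [↓reduceIte, add_zero, Nat.add_one_ne_zero, if_false, Nat.add_sub_cancel]
      exact sum_congr rfl fun p _ => by
        rw [show u + 1 - (p + 1) = u - p by omega, show α + (p + 1) - 1 = α + p by omega]
  · rw [if_neg hα, if_neg (show ¬(1 ≤ α ∧ α ≤ M - t) by omega), sub_zero]
    split_ifs with hs
    · rfl
    · rw [pr_apply, if_neg (by omega)]

theorem pr_eq_zero (hg : ∀ i, g i ∈ F w k) (h : k < r + s) : pr M t r s g = 0 := by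
  funext α
  rw [pr_apply, Pi.zero_apply]
  split_ifs
  · exact sum_eq_zero fun p _ => co_eq_zero (hg _) fun hm => absurd hm.2 (by simp; omega)
  · rfl

/-- A section of `pr`. -/
def sec (M t r s : ℕ) : Hf →ₗ[ℚ] Tb :=
  LinearMap.pi fun i =>
    if t + 1 ≤ i ∧ i ≤ M then
      (LinearMap.proj (R := ℚ) (φ := fun _ : ℕ => ℚ) (i - t)).smulRight (am (t, 0, r, s))
    else 0

theorem sec_apply (M t r s : ℕ) (f : Hf) (i : ℕ) :
    sec M t r s f i = if t + 1 ≤ i ∧ i ≤ M then f (i - t) • am (t, 0, r, s) else 0 := by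
  unfold sec; rw [LinearMap.pi_apply]; split_ifs <;> simp

theorem sec_mem (ht : (t : ℤ) = w + r + s) {f : Hf} (h : f = 0 ∨ (r : ℤ) + s ≤ k) :
    sec M t r s f ∈ Tab 1 M w k := fun i => by
  rw [sec_apply]
  split_ifs with hi
  · refine ⟨?_, fun h' => by omega⟩
    rcases h with rfl | h
    · simp
    · rw [F_eq_AM]
      exact Submodule.smul_mem _ _ (am_mem ⟨by simpa using ht, h⟩)
  · exact ⟨zero_mem _, fun _ => rfl⟩

theorem pr_sec {f : Hf} (hf : Supp (M - t) f) : pr M t r s (sec M t r s f) = f := by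
  funext α
  rw [pr_apply]
  split_ifs with hα
  · rw [sum_eq_single t]
    · rw [sec_apply, if_pos (by omega), map_smul, Nat.sub_self, co_am, if_pos rfl,
        Nat.add_sub_cancel, smul_eq_mul, mul_one]
    · intro p hp hne
      rw [mem_range] at hp
      rw [sec_apply]
      split_ifs
      · rw [map_smul, co_am, if_neg (fun e => hne (congrArg Prod.fst e).symm), smul_zero]
      · exact map_zero _
    · simp
  · exact (hf α (by omega)).symm

theorem pr_sec_ne {t' r' s' : ℕ} (h : (r', s') ≠ (r, s)) (f : Hf) :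
    pr M t r s (sec M t' r' s' f) = 0 := by
  funext α
  rw [pr_apply, Pi.zero_apply]
  split_ifs
  · refine sum_eq_zero fun p _ => ?_
    rw [sec_apply]
    split_ifs
    · rw [map_smul, co_am, if_neg (fun e => h (congrArg (fun m => m.2.2) e)), smul_zero]
    · exact map_zero _
  · rfl

end Vale.Agent.P195.BRes
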